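import Vale.Agent.P370Z.ASM.Lin

/-!
# P370, block ASM: bounds on derivatives, product functions
-/

namespace Vale.Agent.P370Z.ASM

open MeasureTheory Finset

/-- Bounds with constant weight. -/
def B1 (k : ℕ) (C : ℝ) (f : ℝ → ℝ) : Prop := Bd k C (fun _ => 1) f

theorem B1.bd {k : ℕ} {C : ℝ} {f : ℝ → ℝ} (h : B1 k C f) (x : ℝ) : |f x| ≤ C := by
  cases k with
  | zero => simpa using h.2 x
  | succ k => simpa using h.2.1 x

theorem B1.nonneg {k : ℕ} {C : ℝ} {f : ℝ → ℝ} (h : B1 k C f) : 0 ≤ C :=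
  (abs_nonneg _).trans (h.bd 0)

theorem B1.diff {k : ℕ} {C : ℝ} {f : ℝ → ℝ} (h : B1 (k + 1) C f) : Differentiable ℝ f := h.1

theorem B1.der {k : ℕ} {C : ℝ} {f : ℝ → ℝ} (h : B1 (k + 1) C f) : B1 k C (deriv f) := h.2.2

theorem B1.cont {k : ℕ} {C : ℝ} {f : ℝ → ℝ} (h : B1 k C f) : Continuous f := by
  cases k with
  | zero => exact h.1
  | succ k => exact h.diff.continuous

theorem B1.zero {C : ℝ} {f : ℝ → ℝ} (h1 : Continuous f) (h2 : ∀ x, |f x| ≤ C) : B1 0 C f :=
  ⟨h1, fun x => by simpa using h2 x⟩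

theorem B1.succ {k : ℕ} {C : ℝ} {f : ℝ → ℝ} (h1 : Differentiable ℝ f) (h2 : ∀ x, |f x| ≤ C)
    (h3 : B1 k C (deriv f)) : B1 (k + 1) C f :=
  ⟨h1, fun x => by simpa using h2 x, h3⟩

theorem B1.mono {k : ℕ} {C : ℝ} {f : ℝ → ℝ} (h : B1 (k + 1) C f) : B1 k C f := by
  induction k generalizing f with
  | zero => exact B1.zero h.cont h.bd
  | succ k ih => exact B1.succ h.diff h.bd (ih h.der)

theorem B1.add {k : ℕ} {C C' : ℝ} {f g : ℝ → ℝ} (hf : B1 k C f) (hg : B1 k C' g) :
    B1 k (C + C') fun x => f x + g x := by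
  induction k generalizing f g with
  | zero =>
    exact B1.zero (hf.cont.add hg.cont) fun x =>
      (abs_add_le _ _).trans (add_le_add (hf.bd x) (hg.bd x))
  | succ k ih =>
    refine B1.succ (hf.diff.add hg.diff) (fun x =>
      (abs_add_le _ _).trans (add_le_add (hf.bd x) (hg.bd x))) ?_
    have : deriv (fun x => f x + g x) = fun x => deriv f x + deriv g x := by
      funext x
      exact deriv_fun_add (hf.diff x) (hg.diff x)
    rw [this]
    exact ih hf.der hg.der

theorem B1.mul {k : ℕ} {C C' : ℝ} {f g : ℝ → ℝ} (hf : B1 k C f) (hg : B1 k C' g) :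
    B1 k (2 ^ k * (C * C')) fun x => f x * g x := by
  induction k generalizing f g with
  | zero =>
    refine B1.zero (hf.cont.mul hg.cont) fun x => ?_
    rw [abs_mul, pow_zero, one_mul]
    exact mul_le_mul (hf.bd x) (hg.bd x) (abs_nonneg _) hf.nonneg
  | succ k ih =>
    refine B1.succ (hf.diff.mul hg.diff) (fun x => ?_) ?_
    · rw [abs_mul]
      refine (mul_le_mul (hf.bd x) (hg.bd x) (abs_nonneg _) hf.nonneg).trans ?_
      exact le_mul_of_one_le_left (mul_nonneg hf.nonneg hg.nonneg) (one_le_pow₀ (by norm_num))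
    · have : deriv (fun x => f x * g x) = fun x => deriv f x * g x + f x * deriv g x := by
        funext x
        exact deriv_fun_mul (hf.diff x) (hg.diff x)
      rw [this]
      have h1 := (ih hf.der hg.mono).add (ih hf.mono hg.der)
      convert h1 using 1
      ring

theorem B1.contDiff {k : ℕ} {C : ℝ} {f : ℝ → ℝ} (h : B1 (k + 1) C f) : ContDiff ℝ 1 f :=
  contDiff_one_iff_deriv.2 ⟨h.diff, h.der.cont⟩

/-- Support in `[-L, L]`. -/
def Sup (L : ℝ) (f : ℝ → ℝ) : Prop := ∀ x, f x ≠ 0 → |x| ≤ L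

theorem Sup.der {L : ℝ} {f : ℝ → ℝ} (h : Sup L f) : Sup L (deriv f) := by
  intro x hx
  have h1 : tsupport f ⊆ {x | |x| ≤ L} :=
    closure_minimal (fun y hy => h y hy) (isClosed_le continuous_abs continuous_const)
  exact h1 (support_deriv_subset hx)

theorem Sup.mul_right {L : ℝ} {f : ℝ → ℝ} (h : Sup L f) (g : ℝ → ℝ) :
    Sup L fun x => f x * g x := fun x hx => h x (left_ne_zero_of_mul hx)

theorem Sup.mul_left {L : ℝ} {f : ℝ → ℝ} (h : Sup L f) (g : ℝ → ℝ) :
    Sup L fun x => g x * f x := fun x hx => h x (right_ne_zero_of_mul hx)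

theorem Sup.res {L : ℝ} {f : ℝ → ℝ} (h : Sup L f) (u : ℝ → ℝ) : Sup L (res1 u f) := by
  intro x hx
  by_contra hc
  apply hx
  have h1 : f x = 0 := by
    by_contra h1
    exact hc (h x h1)
  have h2 : deriv (deriv f) x = 0 := by
    by_contra h2
    exact hc (h.der.der x h2)
  simp [res1, h1, h2]

theorem Sup.compact {L : ℝ} {f : ℝ → ℝ} (h : Sup L f) : HasCompactSupport f := by
  refine HasCompactSupport.intro (isCompact_Icc (a := -L) (b := L)) fun x hx => ?_
  by_contra hc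
  exact hx (abs_le.1 (h x hc))

theorem Sup.int {L : ℝ} {f : ℝ → ℝ} (h : Sup L f) (hf : Continuous f) : Integrable f :=
  hf.integrable_of_hasCompactSupport h.compact

theorem Sup.abs_int_le {L B : ℝ} {f : ℝ → ℝ} (h : Sup L f) (hL : 0 ≤ L) (hB : ∀ x, |f x| ≤ B) :
    |∫ x, f x| ≤ B * (2 * L) := by
  have h1 : ∫ x in Set.Icc (-L) L, f x = ∫ x, f x := by
    refine setIntegral_eq_integral_of_forall_compl_eq_zero fun x hx => ?_
    by_contra hc
    exact hx (abs_le.1 (h x hc))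
  rw [← h1]
  have h2 := norm_setIntegral_le_of_norm_le_const (μ := volume) (s := Set.Icc (-L) L) (f := f)
    (C := B) (by simp) (fun x _ => by simpa using hB x)
  rw [Real.volume_real_Icc_of_le (by linarith)] at h2
  rw [← Real.norm_eq_abs]
  convert h2 using 2
  ring

/-- Product functions. -/
def tp (f g h : ℝ → ℝ) (x : P3) : ℝ := f (x 0) * g (x 1) * h (x 2)

theorem hasFDerivAt_coord {f : ℝ → ℝ} (i : Fin 3) (x : P3) (hf : DifferentiableAt ℝ f (x i)) :
    HasFDerivAt (fun y : P3 => f (y i))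
      ((deriv f (x i)) • (ContinuousLinearMap.proj i : P3 →L[ℝ] ℝ)) x :=
  hf.hasDerivAt.comp_hasFDerivAt x (hasFDerivAt_apply i x)

theorem tp_diff {f g h : ℝ → ℝ} (hf : Differentiable ℝ f) (hg : Differentiable ℝ g)
    (hh : Differentiable ℝ h) : Differentiable ℝ (tp f g h) := fun x =>
  (((hasFDerivAt_coord 0 x (hf _)).mul (hasFDerivAt_coord 1 x (hg _))).mul
    (hasFDerivAt_coord 2 x (hh _))).differentiableAt

theorem pd_tp {f g h : ℝ → ℝ} (hf : Differentiable ℝ f) (hg : Differentiable ℝ g)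
    (hh : Differentiable ℝ h) :
    pd 0 (tp f g h) = tp (deriv f) g h ∧ pd 1 (tp f g h) = tp f (deriv g) h ∧
      pd 2 (tp f g h) = tp f g (deriv h) := by
  have h1 : ∀ x, HasFDerivAt (tp f g h) _ x := fun x =>
    ((hasFDerivAt_coord 0 x (hf _)).mul (hasFDerivAt_coord 1 x (hg _))).mul
      (hasFDerivAt_coord 2 x (hh _))
  refine ⟨funext fun x => ?_, funext fun x => ?_, funext fun x => ?_⟩ <;>
  · unfold pd
    rw [(h1 x).fderiv]
    simp [tp, mul_comm, mul_assoc]

theorem tp_cont {f g h : ℝ → ℝ} (hf : Continuous f) (hg : Continuous g) (hh : Continuous h) :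
    Continuous (tp f g h) := by
  unfold tp
  fun_prop

theorem tp_meas {f g h : ℝ → ℝ} (hf : Measurable f) (hg : Measurable g) (hh : Measurable h) :
    Measurable (tp f g h) := by
  unfold tp
  fun_prop

theorem tp_abs_le {f g h : ℝ → ℝ} {A B C : ℝ} (hf : ∀ x, |f x| ≤ A) (hg : ∀ x, |g x| ≤ B)
    (hh : ∀ x, |h x| ≤ C) (x : P3) : |tp f g h x| ≤ A * B * C := by
  have hA : 0 ≤ A := (abs_nonneg _).trans (hf 0)
  have hB : 0 ≤ B := (abs_nonneg _).trans (hg 0)
  unfold tp
  rw [abs_mul, abs_mul]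
  exact mul_le_mul (mul_le_mul (hf _) (hg _) (abs_nonneg _) hA) (hh _) (abs_nonneg _)
    (mul_nonneg hA hB)

theorem bdM_tp {k : ℕ} {f g h : ℝ → ℝ} {A B C : ℝ} (hf : B1 k A f) (hg : B1 k B g)
    (hh : B1 k C h) : BdM k (A * B * C) (tp f g h) := by
  induction k generalizing f g h with
  | zero => exact ⟨tp_cont hf.cont hg.cont hh.cont, tp_abs_le hf.bd hg.bd hh.bd⟩
  | succ k ih =>
    refine ⟨tp_diff hf.diff hg.diff hh.diff, tp_abs_le hf.bd hg.bd hh.bd, fun i => ?_⟩
    obtain ⟨h0, h1, h2⟩ := pd_tp hf.diff hg.diff hh.diff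
    fin_cases i
    · simpa [h0] using ih hf.der hg.mono hh.mono
    · simpa [h1] using ih hf.mono hg.der hh.mono
    · simpa [h2] using ih hf.mono hg.mono hh.der

theorem tp_supp {L : ℝ} {f g h : ℝ → ℝ} (hf : Sup L f) (hg : Sup L g) (hh : Sup L h) (x : P3)
    (hx : tp f g h x ≠ 0) (k : Fin 3) : |x k| ≤ L := by
  have h0 := left_ne_zero_of_mul (left_ne_zero_of_mul hx)
  have h1 := right_ne_zero_of_mul (left_ne_zero_of_mul hx)
  have h2 := right_ne_zero_of_mul hx
  fin_cases k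
  · exact hf _ h0
  · exact hg _ h1
  · exact hh _ h2

theorem mem_ball_of {L : ℝ} (hL : 0 ≤ L) {x : P3} (h : ∀ k, |x k| ≤ L) :
    x ∈ Metric.closedBall (0 : P3) L := by
  rw [mem_closedBall_zero_iff, pi_norm_le_iff_of_nonneg hL]
  exact fun k => h k

theorem compact_of_supp {L : ℝ} (hL : 0 ≤ L) {F : P3 → ℝ} (h : ∀ x, F x ≠ 0 → ∀ k, |x k| ≤ L) :
    HasCompactSupport F := by
  refine HasCompactSupport.intro (isCompact_closedBall (0 : P3) L) fun x hx => ?_
  by_contra hc
  exact hx (mem_ball_of hL (h x hc))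

theorem c1c_tp {L : ℝ} (hL : 0 ≤ L) {f g h : ℝ → ℝ} (hf : ContDiff ℝ 1 f) (hg : ContDiff ℝ 1 g)
    (hh : ContDiff ℝ 1 h) (sf : Sup L f) (sg : Sup L g) (sh : Sup L h) : C1c (tp f g h) := by
  refine ⟨?_, compact_of_supp hL (tp_supp sf sg sh)⟩
  exact ((hf.comp (contDiff_apply ℝ ℝ 0)).mul (hg.comp (contDiff_apply ℝ ℝ 1))).mul
    (hh.comp (contDiff_apply ℝ ℝ 2))

theorem cc_tp {L : ℝ} (hL : 0 ≤ L) {f g h : ℝ → ℝ} (hf : Continuous f) (hg : Continuous g)
    (hh : Continuous h) (sf : Sup L f) (sg : Sup L g) (sh : Sup L h) : Cc (tp f g h) :=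
  ⟨tp_cont hf hg hh, compact_of_supp hL (tp_supp sf sg sh)⟩

theorem integral_tp (f g h : ℝ → ℝ) : ∫ x, tp f g h x = (∫ x, f x) * (∫ x, g x) * ∫ x, h x := by
  have h1 := integral_fintype_prod_volume_eq_prod (ι := Fin 3) (E := fun _ => ℝ) ![f, g, h]
  simpa [Fin.prod_univ_three, tp] using h1

theorem tp_mul (f g h f' g' h' : ℝ → ℝ) (x : P3) :
    tp f g h x * tp f' g' h' x =
      tp (fun t => f t * f' t) (fun t => g t * g' t) (fun t => h t * h' t) x := by
  unfold tp
  ring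

theorem integral_tp_mul (f g h f' g' h' : ℝ → ℝ) : ∫ x, tp f g h x * tp f' g' h' x =
    (∫ t, f t * f' t) * (∫ t, g t * g' t) * ∫ t, h t * h' t := by
  simp only [tp_mul, integral_tp]

/-- A bounded measurable function with support in a box. -/
theorem int_box {L B : ℝ} (hL : 0 ≤ L) {F : P3 → ℝ} (hm : Measurable F) (hB : ∀ x, |F x| ≤ B)
    (h : ∀ x, F x ≠ 0 → ∀ k, |x k| ≤ L) : Integrable F ∧ |∫ x, F x| ≤ B * (2 * L) ^ 3 := by
  have h0 : ∀ x, x ∉ Metric.closedBall (0 : P3) L → F x = 0 := by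
    intro x hx
    by_contra hc
    exact hx (mem_ball_of hL (h x hc))
  have hv : volume (Metric.closedBall (0 : P3) L) = ENNReal.ofReal ((2 * L) ^ 3) := by
    simpa using Real.volume_pi_closedBall (0 : P3) hL
  have hfin : volume (Metric.closedBall (0 : P3) L) < ⊤ := by
    rw [hv]
    exact ENNReal.ofReal_lt_top
  constructor
  · have h1 : IntegrableOn F (Metric.closedBall (0 : P3) L) :=
      Measure.integrableOn_of_bounded (M := B) hfin.ne hm.aestronglyMeasurable
        (Filter.Eventually.of_forall fun x => by simpa using hB x)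
    exact h1.integrable_of_forall_notMem_eq_zero h0
  · rw [← setIntegral_eq_integral_of_forall_compl_eq_zero h0]
    have h2 := norm_setIntegral_le_of_norm_le_const (μ := volume) (f := F) (C := B) hfin
      (fun x _ => by simpa using hB x)
    rw [Measure.real, hv, ENNReal.toReal_ofReal (by positivity)] at h2
    simpa using h2

end Vale.Agent.P370Z.ASM
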