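import Vale.Agent.P370Z.ASM.Gap

/-!
# P370, block ASM: residuals and matrix entries of the product orbitals
-/

namespace Vale.Agent.P370Z.ASM

open MeasureTheory Finset

theorem B1.le {k : ℕ} {C C' : ℝ} {f : ℝ → ℝ} (h : B1 k C f) (hC : C ≤ C') : B1 k C' f := by
  induction k generalizing f with
  | zero => exact B1.zero h.cont fun x => (h.bd x).trans hC
  | succ k ih => exact B1.succ h.diff (fun x => (h.bd x).trans hC) (ih h.der)

theorem Sup.le {L L' : ℝ} {f : ℝ → ℝ} (h : Sup L f) (hL : L ≤ L') : Sup L' f :=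
  fun x hx => (h x hx).trans hL

theorem BM.potOK {V : P3 → ℝ} (h : BM V) : PotOK V := by
  obtain ⟨B, hB⟩ := h.2
  exact ⟨h.1, (memLp_top_of_bound h.1.aestronglyMeasurable B
    (Filter.Eventually.of_forall fun x => by simpa using hB x)).locallyIntegrable le_top⟩

theorem potOK_add {V D : P3 → ℝ} (hV : PotOK V) (hD : PotOK D) : PotOK fun x => V x + D x :=
  ⟨hV.1.add hD.1, hV.2.add hD.2⟩

theorem ibp {a v : P3 → ℝ} (ha : C1c a) (hv : C1c v) (i : Fin 3) :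
    ∫ x, a x * pd i v x = -∫ x, pd i a x * v x :=
  integral_mul_fderiv_eq_neg_fderiv_mul_of_integrable ((cc_pd ha i).int_mul (cc_of_c1c hv))
    ((cc_of_c1c ha).int_mul (cc_pd hv i)) ((cc_of_c1c ha).int_mul (cc_of_c1c hv))
    (fun x _ => c1c_diff ha x) (fun x _ => c1c_diff hv x)

theorem iadd {f g : P3 → ℝ} (hf : Integrable f) (hg : Integrable g) :
    Integrable fun x => f x + g x := hf.add hg

theorem amgm {r v : P3 → ℝ} (hr : Integrable fun x => r x ^ 2) (hv : Integrable fun x => v x * v x)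
    (hrv : Integrable fun x => r x * v x) (a : ℝ) {s : ℝ} (hs : 0 < s) :
    -(s * ip v v + a ^ 2 / s * ∫ x, r x ^ 2) ≤ 2 * a * ∫ x, r x * v x := by
  have h1 : 0 ≤ ∫ x, (s * (v x * v x) + a ^ 2 / s * r x ^ 2 + 2 * a * (r x * v x)) := by
    refine integral_nonneg fun x => ?_
    have h2 : s * (v x * v x) + a ^ 2 / s * r x ^ 2 + 2 * a * (r x * v x) =
        (s * v x + a * r x) ^ 2 / s := by
      field_simp
      ring
    simp only [h2]
    positivity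
  rw [integral_add (iadd (hv.const_mul _) (hr.const_mul _)) (hrv.const_mul _),
    integral_add (hv.const_mul _) (hr.const_mul _), integral_const_mul, integral_const_mul,
    integral_const_mul] at h1
  unfold ip
  linarith

/-- The Laplacian of a product function. -/
noncomputable def lap (f g h : ℝ → ℝ) (x : P3) : ℝ :=
  tp (deriv (deriv f)) g h x + tp f (deriv (deriv g)) h x + tp f g (deriv (deriv h)) x

/-- The residual. -/
noncomputable def r0 (V : P3 → ℝ) (E : ℝ) (f g h : ℝ → ℝ) (x : P3) : ℝ :=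
  -(1 / 2) * lap f g h x + (V x - E) * tp f g h x

/-- Orbitals in one dimension. -/
structure Orb (M : ℝ) (f : ℝ → ℝ) : Prop where
  bd : B1 4 M f
  sup : Sup M f

section Orb

variable {M : ℝ} {f g h : ℝ → ℝ}

theorem Orb.nonneg (hf : Orb M f) : 0 ≤ M := hf.bd.nonneg

theorem c1c_orb (hf : Orb M f) (hg : Orb M g) (hh : Orb M h) : C1c (tp f g h) :=
  c1c_tp hf.nonneg hf.bd.contDiff hg.bd.contDiff hh.bd.contDiff hf.sup hg.sup hh.sup

theorem cc_lap (hf : Orb M f) (hg : Orb M g) (hh : Orb M h) : Cc (lap f g h) := by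
  have h0 := cc_tp hf.nonneg hf.bd.der.der.cont hg.bd.cont hh.bd.cont hf.sup.der.der hg.sup hh.sup
  have h1 := cc_tp hf.nonneg hf.bd.cont hg.bd.der.der.cont hh.bd.cont hf.sup hg.sup.der.der hh.sup
  have h2 := cc_tp hf.nonneg hf.bd.cont hg.bd.cont hh.bd.der.der.cont hf.sup hg.sup hh.sup.der.der
  exact ⟨(h0.1.add h1.1).add h2.1, (h0.2.add h1.2).add h2.2⟩

theorem kin_ibp (hf : Orb M f) (hg : Orb M g) (hh : Orb M h) {v : P3 → ℝ} (hv : C1c v) :
    kin1 (tp f g h) v = ∫ x, -(1 / 2) * lap f g h x * v x := by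
  obtain ⟨p0, p1, p2⟩ := pd_tp hf.bd.diff hg.bd.diff hh.bd.diff
  have c0 := c1c_tp hf.nonneg hf.bd.der.contDiff hg.bd.contDiff hh.bd.contDiff hf.sup.der hg.sup
    hh.sup
  have c1 := c1c_tp hf.nonneg hf.bd.contDiff hg.bd.der.contDiff hh.bd.contDiff hf.sup hg.sup.der
    hh.sup
  have c2 := c1c_tp hf.nonneg hf.bd.contDiff hg.bd.contDiff hh.bd.der.contDiff hf.sup hg.sup
    hh.sup.der
  have q0 := (pd_tp hf.bd.der.diff hg.bd.diff hh.bd.diff).1
  have q1 := (pd_tp hf.bd.diff hg.bd.der.diff hh.bd.diff).2.1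
  have q2 := (pd_tp hf.bd.diff hg.bd.diff hh.bd.der.diff).2.2
  have i0 := (cc_pd c0 0).int_mul (cc_of_c1c hv)
  have i1 := (cc_pd c1 1).int_mul (cc_of_c1c hv)
  have i2 := (cc_pd c2 2).int_mul (cc_of_c1c hv)
  rw [kin1, Fin.sum_univ_three, p0, p1, p2, ibp c0 hv, ibp c1 hv, ibp c2 hv]
  rw [q0] at i0 ⊢
  rw [q1] at i1 ⊢
  rw [q2] at i2 ⊢
  simp only [lap, mul_assoc, integral_const_mul, add_mul]
  rw [integral_add (iadd i0 i1) i2, integral_add i0 i1]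
  ring

theorem qb_orb (hf : Orb M f) (hg : Orb M g) (hh : Orb M h) {V D : P3 → ℝ} (hV : PotOK V)
    (hD : PotOK D) (E : ℝ) {v : P3 → ℝ} (hv : C1c v) :
    qb (fun x => V x + D x) (tp f g h) v = (∫ x, r0 V E f g h x * v x) + E * ip (tp f g h) v +
      ∫ x, D x * (tp f g h x * v x) := by
  have c0 := (cc_of_c1c (c1c_orb hf hg hh)).mul (cc_of_c1c hv)
  have i1 : Integrable fun x => -(1 / 2) * lap f g h x * v x := by
    simpa only [mul_assoc] using ((cc_lap hf hg hh).int_mul (cc_of_c1c hv)).const_mul (-(1 / 2))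
  have h1 : ∀ x, r0 V E f g h x * v x =
      -(1 / 2) * lap f g h x * v x + V x * (tp f g h x * v x) - E * (tp f g h x * v x) := by
    intro x
    unfold r0
    ring
  simp only [qb, kin_ibp hf hg hh hv, h1, add_mul, ip]
  rw [integral_add (c0.int_pot hV) (c0.int_pot hD),
    integral_sub (iadd i1 (c0.int_pot hV)) (c0.int.const_mul _), integral_add i1 (c0.int_pot hV),
    integral_const_mul]
  ring

theorem r0_meas (hf : Orb M f) (hg : Orb M g) (hh : Orb M h) {V : P3 → ℝ} (hV : Measurable V)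
    (E : ℝ) : Measurable (r0 V E f g h) :=
  ((cc_lap hf hg hh).1.measurable.const_mul _).add
    ((hV.sub_const E).mul (cc_of_c1c (c1c_orb hf hg hh)).1.measurable)

theorem r0_supp (hf : Orb M f) (hg : Orb M g) (hh : Orb M h) (V : P3 → ℝ) (E : ℝ) (x : P3)
    (hx : r0 V E f g h x ≠ 0) (k : Fin 3) : |x k| ≤ M := by
  by_contra hc
  apply hx
  have h0 : ∀ f g h : ℝ → ℝ, Sup M f → Sup M g → Sup M h → tp f g h x = 0 := by
    intro f g h sf sg sh
    by_contra h0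
    exact hc (tp_supp sf sg sh x h0 k)
  simp [r0, lap, h0 _ _ _ hf.sup.der.der hg.sup hh.sup, h0 _ _ _ hf.sup hg.sup.der.der hh.sup,
    h0 _ _ _ hf.sup hg.sup hh.sup.der.der, h0 _ _ _ hf.sup hg.sup hh.sup]

theorem r0_eq (V W : P3 → ℝ) (E0 ω : ℝ) (u f g h : ℝ → ℝ) (x : P3) :
    r0 V (E0 + ω / 2) f g h x = tp (res1 u f) g h x + tp f (res1 u g) h x +
      tp f g (res1 (fun z => ω ^ 2 * z ^ 2 / 2 - ω / 2) h) x + W x * tp f g h x +
      (V x - (E0 + u (x 0) + u (x 1) + W x + ω ^ 2 * x 2 ^ 2 / 2)) * tp f g h x := by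
  simp only [r0, lap, tp, res1]
  ring

theorem kin_orb_le (hf : Orb M f) (hg : Orb M g) (hh : Orb M h) :
    kin1 (tp f g h) (tp f g h) ≤ 12 * M ^ 9 := by
  obtain ⟨p0, p1, p2⟩ := pd_tp hf.bd.diff hg.bd.diff hh.bd.diff
  have key : ∀ f g h : ℝ → ℝ, B1 3 M f → B1 3 M g → B1 3 M h → Sup M f → Sup M g → Sup M h →
      ∫ x, tp f g h x * tp f g h x ≤ 8 * M ^ 9 := by
    intro f g h bf bg bh sf sg sh
    have m := (tp_cont bf.cont bg.cont bh.cont).measurable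
    have h1 := (int_box (B := (M * M * M) * (M * M * M)) bf.nonneg (m.fun_mul m) (fun x => by
      rw [abs_mul]
      exact mul_le_mul (tp_abs_le bf.bd bg.bd bh.bd x) (tp_abs_le bf.bd bg.bd bh.bd x)
        (abs_nonneg _) (by have := bf.nonneg; positivity))
      (fun x hx => tp_supp sf sg sh x (left_ne_zero_of_mul hx))).2
    refine (le_abs_self _).trans (h1.trans (le_of_eq ?_))
    ring
  rw [kin1, Fin.sum_univ_three, p0, p1, p2]
  have k0 := key _ _ _ hf.bd.der hg.bd.mono hh.bd.mono hf.sup.der hg.sup hh.sup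
  have k1 := key _ _ _ hf.bd.mono hg.bd.der hh.bd.mono hf.sup hg.sup.der hh.sup
  have k2 := key _ _ _ hf.bd.mono hg.bd.mono hh.bd.der hf.sup hg.sup hh.sup.der
  linarith

end Orb

/-- The weight function of the rooms. -/
noncomputable def wfun (K : ℕ) (w : ℕ → ℕ → ℝ) (b : ℕ → ℝ → ℝ) (x : P3) : ℝ :=
  ∑ k ∈ range K, ∑ l ∈ range K, w k l * b k (x 0) * b l (x 1)

section Ent

variable {K : ℕ} {Λ : ℝ} {u : ℝ → ℝ} {e b : ℕ → ℝ → ℝ} {H : ℕ → ℕ → ℝ} {zl zr sb : ℕ → ℝ}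
  {C Γ τ δm δg εb εz : ℝ} {ω z0 L1 : ℝ} {e3 : ℝ → ℝ} {Γ3 τ3 δ3 : ℝ}

theorem sup_e (B : Band1 K Λ u e b H zl zr sb C Γ τ δm δg εb εz) {L : ℝ} (hL : Λ ≤ L)
    (k : Fin K) : Sup L (e k) := by
  intro x hx
  have h1 := B.e_supp k k.2 x hx
  rw [abs_le]
  constructor <;> linarith [h1.1, h1.2]

theorem orb_e (B : Band1 K Λ u e b H zl zr sb C Γ τ δm δg εb εz) {M : ℝ} (hC : C ≤ M) (hL : Λ ≤ M)
    (k : Fin K) : Orb M (e k) := ⟨B1.le (B.e_bd k k.2) hC, sup_e B hL k⟩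

theorem orb_z (Z : ZBand ω z0 L1 e3 C Γ3 τ3 δ3) {M : ℝ} (hC : C ≤ M) (hL : z0 + 1 ≤ M) :
    Orb M e3 := ⟨B1.le Z.e_bd hC, fun z hz => (Z.e_supp z hz).trans hL⟩

theorem wfun_le (B : Band1 K Λ u e b H zl zr sb C Γ τ δm δg εb εz) {w : ℕ → ℕ → ℝ} {wm : ℝ}
    (hw : ∀ k l, |w k l| ≤ wm) (x : P3) : |wfun K w b x| ≤ wm := by
  have hwm : 0 ≤ wm := (abs_nonneg _).trans (hw 0 0)
  have s0 : 0 ≤ ∑ k ∈ range K, b k (x 0) :=
    Finset.sum_nonneg fun k hk => B.b_nonneg k (Finset.mem_range.1 hk) _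
  have s1 : 0 ≤ ∑ k ∈ range K, b k (x 1) :=
    Finset.sum_nonneg fun k hk => B.b_nonneg k (Finset.mem_range.1 hk) _
  calc |wfun K w b x| ≤ ∑ k ∈ range K, ∑ l ∈ range K, wm * (b k (x 0) * b l (x 1)) := by
        refine (Finset.abs_sum_le_sum_abs _ _).trans (Finset.sum_le_sum fun k hk =>
          (Finset.abs_sum_le_sum_abs _ _).trans (Finset.sum_le_sum fun l hl => ?_))
        have h1 := mul_nonneg (B.b_nonneg k (Finset.mem_range.1 hk) (x 0))
          (B.b_nonneg l (Finset.mem_range.1 hl) (x 1))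
        rw [mul_assoc, abs_mul, abs_of_nonneg h1]
        exact mul_le_mul_of_nonneg_right (hw k l) h1
    _ = wm * ((∑ k ∈ range K, b k (x 0)) * ∑ l ∈ range K, b l (x 1)) := by
        rw [Finset.sum_mul_sum, Finset.mul_sum]
        simp only [Finset.mul_sum]
    _ ≤ wm * (1 * 1) := mul_le_mul_of_nonneg_left
        (mul_le_mul (B.b_sum _) (B.b_sum _) s1 zero_le_one) hwm
    _ = wm := by ring

theorem wfun_cont (B : Band1 K Λ u e b H zl zr sb C Γ τ δm δg εb εz) (w : ℕ → ℕ → ℝ) :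
    Continuous (wfun K w b) := by
  refine continuous_finsetSum _ fun k hk => continuous_finsetSum _ fun l hl => ?_
  exact (continuous_const.mul ((B.b_cont k (Finset.mem_range.1 hk)).comp (continuous_apply 0))).mul
    ((B.b_cont l (Finset.mem_range.1 hl)).comp (continuous_apply 1))

theorem res_cont {f v : ℝ → ℝ} {M : ℝ} (hf : Orb M f) (hv : Continuous v) :
    Continuous (res1 v f) :=
  (continuous_const.mul hf.bd.der.der.cont).add (hv.mul hf.bd.cont)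

theorem rem_le (B : Band1 K Λ u e b H zl zr sb C Γ τ δm δg εb εz)
    (Z : ZBand ω z0 L1 e3 C Γ3 τ3 δ3) {M err : ℝ} (hC : C ≤ M) (herr : 0 ≤ err) {R : P3 → ℝ}
    (hR : ∀ x : P3, 1 ≤ x 0 → x 0 ≤ Λ - 1 → 1 ≤ x 1 → x 1 ≤ Λ - 1 → |x 2| ≤ z0 + 1 → |R x| ≤ err)
    (k l : Fin K) (x : P3) : |R x * tp (e k) (e l) e3 x| ≤ err * (M * M * M) := by
  have hM := (B1.le Z.e_bd hC).nonneg
  by_cases hx : tp (e k) (e l) e3 x = 0
  · rw [hx, mul_zero, abs_zero]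
    positivity
  · have h0 := B.e_supp k k.2 _ (left_ne_zero_of_mul (left_ne_zero_of_mul hx))
    have h1 := B.e_supp l l.2 _ (right_ne_zero_of_mul (left_ne_zero_of_mul hx))
    have h2 := Z.e_supp _ (right_ne_zero_of_mul hx)
    rw [abs_mul]
    exact mul_le_mul (hR x h0.1 h0.2 h1.1 h1.2 h2) (tp_abs_le (B1.le (B.e_bd k k.2) hC).bd
      (B1.le (B.e_bd l l.2) hC).bd (B1.le Z.e_bd hC).bd x) (abs_nonneg _) herr

theorem r0_le (B : Band1 K Λ u e b H zl zr sb C Γ τ δm δg εb εz)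
    (Z : ZBand ω z0 L1 e3 C Γ3 τ3 δ3) {M err : ℝ} (hC : C ≤ M) (herr : 0 ≤ err)
    {w : ℕ → ℕ → ℝ} {wm : ℝ} (hw : ∀ k l, |w k l| ≤ wm) {V : P3 → ℝ} {E0 : ℝ}
    (hR : ∀ x : P3, 1 ≤ x 0 → x 0 ≤ Λ - 1 → 1 ≤ x 1 → x 1 ≤ Λ - 1 → |x 2| ≤ z0 + 1 →
      |V x - (E0 + u (x 0) + u (x 1) + wfun K w b x + ω ^ 2 * x 2 ^ 2 / 2)| ≤ err)
    (k l : Fin K) (x : P3) :
    |r0 V (E0 + ω / 2) (e k) (e l) e3 x| ≤ M ^ 2 * (2 * τ + τ3) + M ^ 3 * (wm + err) := by
  have hwm : 0 ≤ wm := (abs_nonneg _).trans (hw 0 0)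
  have bk := (B1.le (B.e_bd k k.2) hC).bd
  have bl := (B1.le (B.e_bd l l.2) hC).bd
  have bz := (B1.le Z.e_bd hC).bd
  rw [r0_eq V (wfun K w b) E0 ω u]
  have h1 := tp_abs_le (B.res_bd k k.2) bl bz x
  have h2 := tp_abs_le bk (B.res_bd l l.2) bz x
  have h3 := tp_abs_le bk bl Z.res_bd x
  have h4 : |wfun K w b x * tp (e k) (e l) e3 x| ≤ wm * (M * M * M) := by
    rw [abs_mul]
    exact mul_le_mul (wfun_le B hw x) (tp_abs_le bk bl bz x) (abs_nonneg _) hwm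
  have h5 := rem_le B Z hC herr hR k l x
  rw [abs_le] at *
  constructor <;> nlinarith [h1.1, h1.2, h2.1, h2.2, h3.1, h3.2, h4.1, h4.2, h5.1, h5.2]

theorem abs_idm_le {R : Type} [DecidableEq R] (a b : R) : |idm a b| ≤ 1 := by
  unfold idm
  split_ifs <;> simp

theorem w_entry (B : Band1 K Λ u e b H zl zr sb C Γ τ δm δg εb εz)
    (Z : ZBand ω z0 L1 e3 C Γ3 τ3 δ3) {M : ℝ} (hC : C ≤ M) (hL : Λ ≤ M) (hz : z0 + 1 ≤ M)
    (hε1 : εb ≤ 1) {w : ℕ → ℕ → ℝ} {wm : ℝ} (hw : ∀ k l, |w k l| ≤ wm) (κ κ' : Fin K × Fin K) :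
    |(∫ x, wfun K w b x * tp (e κ'.1) (e κ'.2) e3 x * tp (e κ.1) (e κ.2) e3 x) -
      w κ.1 κ.2 * idm κ κ'| ≤ K ^ 2 * (3 * (wm * εb)) := by
  have hwm : 0 ≤ wm := (abs_nonneg _).trans (hw 0 0)
  have o := orb_e B hC hL
  have oz := orb_z Z hC hz
  have h1 : ∀ x, wfun K w b x * tp (e κ'.1) (e κ'.2) e3 x * tp (e κ.1) (e κ.2) e3 x =
      ∑ k ∈ range K, ∑ l ∈ range K, w k l * tp (fun t => b k t * (e κ.1 t * e κ'.1 t))
        (fun t => b l t * (e κ.2 t * e κ'.2 t)) (fun t => e3 t * e3 t) x := by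
    intro x
    simp only [wfun, Finset.sum_mul, tp]
    exact Finset.sum_congr rfl fun k _ => Finset.sum_congr rfl fun l _ => by ring
  have i1 : ∀ k ∈ range K, ∀ l ∈ range K, Integrable fun x => w k l *
      tp (fun t => b k t * (e κ.1 t * e κ'.1 t)) (fun t => b l t * (e κ.2 t * e κ'.2 t))
        (fun t => e3 t * e3 t) x := fun k hk l hl =>
    (cc_tp oz.nonneg ((B.b_cont k (Finset.mem_range.1 hk)).mul ((o _).bd.cont.mul (o _).bd.cont))
      ((B.b_cont l (Finset.mem_range.1 hl)).mul ((o _).bd.cont.mul (o _).bd.cont))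
      (oz.bd.cont.mul oz.bd.cont) (((o _).sup.mul_right _).mul_left _)
      (((o _).sup.mul_right _).mul_left _) (oz.sup.mul_right _)).int.const_mul _
  have h2 : w κ.1 κ.2 * idm κ κ' = ∑ k ∈ range K, ∑ l ∈ range K,
      w k l * ((idm k κ.1 * idm k κ'.1) * (idm l κ.2 * idm l κ'.2)) := by
    rw [Finset.sum_eq_single_of_mem (κ.1 : ℕ) (Finset.mem_range.2 κ.1.2),
      Finset.sum_eq_single_of_mem (κ.2 : ℕ) (Finset.mem_range.2 κ.2.2)]
    · obtain ⟨i, j⟩ := κ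
      obtain ⟨i', j'⟩ := κ'
      by_cases h : i = i' <;> by_cases h' : j = j' <;> simp [idm, h, h', Fin.val_inj]
    · intro l _ hl
      simp [idm, hl]
    · intro k _ hk
      simp [idm, hk]
  simp only [h1]
  rw [integral_finsetSum _ fun k hk => integrable_finsetSum _ (i1 k hk), h2,
    ← Finset.sum_sub_distrib]
  have h3 : (K : ℝ) ^ 2 * (3 * (wm * εb)) = ∑ _k ∈ range K, ∑ _l ∈ range K, 3 * (wm * εb) := by
    simp only [Finset.sum_const, Finset.card_range, nsmul_eq_mul]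
    ring
  rw [h3]
  refine (Finset.abs_sum_le_sum_abs _ _).trans (Finset.sum_le_sum fun k hk => ?_)
  rw [integral_finsetSum _ (i1 k hk), ← Finset.sum_sub_distrib]
  refine (Finset.abs_sum_le_sum_abs _ _).trans (Finset.sum_le_sum fun l hl => ?_)
  rw [integral_const_mul, integral_tp, Z.on, mul_one, ← mul_sub, abs_mul]
  have h4 := B.b_mat k (Finset.mem_range.1 hk) κ.1 κ.1.2 κ'.1 κ'.1.2
  have h5 := B.b_mat l (Finset.mem_range.1 hl) κ.2 κ.2.2 κ'.2 κ'.2.2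
  have h6 : |idm k (κ.1 : ℕ) * idm k (κ'.1 : ℕ)| ≤ 1 := by
    rw [abs_mul]
    exact mul_le_one₀ (abs_idm_le _ _) (abs_nonneg _) (abs_idm_le _ _)
  have h7 : |idm l (κ.2 : ℕ) * idm l (κ'.2 : ℕ)| ≤ 1 := by
    rw [abs_mul]
    exact mul_le_one₀ (abs_idm_le _ _) (abs_nonneg _) (abs_idm_le _ _)
  generalize (∫ t, b k t * (e κ.1 t * e κ'.1 t)) = A at *
  generalize (∫ t, b l t * (e κ.2 t * e κ'.2 t)) = A' at *
  generalize idm k (κ.1 : ℕ) * idm k (κ'.1 : ℕ) = a at *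
  generalize idm l (κ.2 : ℕ) * idm l (κ'.2 : ℕ) = a' at *
  have hε : 0 ≤ εb := (abs_nonneg _).trans h4
  have h8 : |A * A' - a * a'| ≤ 3 * εb := by
    have h9 : A * A' - a * a' = (A - a) * (A' - a') + (A - a) * a' + a * (A' - a') := by ring
    rw [h9]
    refine (abs_add_three _ _ _).trans ?_
    rw [abs_mul, abs_mul, abs_mul]
    have k1 := mul_le_mul h4 (h5.trans hε1) (abs_nonneg _) hε
    have k2 := mul_le_mul h4 h7 (abs_nonneg _) hε
    have k3 := mul_le_mul h6 h5 (abs_nonneg _) zero_le_one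
    linarith
  have := mul_le_mul (hw k l) h8 (abs_nonneg _) hwm
  linarith

theorem on_orb (B : Band1 K Λ u e b H zl zr sb C Γ τ δm δg εb εz)
    (Z : ZBand ω z0 L1 e3 C Γ3 τ3 δ3) (κ κ' : Fin K × Fin K) :
    ip (tp (e κ.1) (e κ.2) e3) (tp (e κ'.1) (e κ'.2) e3) = idm κ κ' := by
  rw [ip, integral_tp_mul, B.on _ κ.1.2 _ κ'.1.2, B.on _ κ.2.2 _ κ'.2.2, Z.on]
  obtain ⟨i, j⟩ := κ
  obtain ⟨i', j'⟩ := κ'
  by_cases h : i = i' <;> by_cases h' : j = j' <;> simp [idm, h, h', Fin.val_inj]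

theorem entry (B : Band1 K Λ u e b H zl zr sb C Γ τ δm δg εb εz)
    (Z : ZBand ω z0 L1 e3 C Γ3 τ3 δ3) {M L0 err η1 η2 : ℝ} (hC : C ≤ M) (hL : Λ ≤ L0)
    (hz : z0 + 1 ≤ L0) (hLM : L0 ≤ M) (herr : 0 ≤ err) (hε1 : εb ≤ 1) {w : ℕ → ℕ → ℝ} {wm : ℝ}
    (hw : ∀ k l, |w k l| ≤ wm) {V D : P3 → ℝ} (hV : BM V) (hD : DiscOK D L0 η1 η2) {E0 : ℝ}
    (hR : ∀ x : P3, 1 ≤ x 0 → x 0 ≤ Λ - 1 → 1 ≤ x 1 → x 1 ≤ Λ - 1 → |x 2| ≤ z0 + 1 →
      |V x - (E0 + u (x 0) + u (x 1) + wfun K w b x + ω ^ 2 * x 2 ^ 2 / 2)| ≤ err)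
    (κ κ' : Fin K × Fin K) :
    |qb (fun x => V x + D x) (tp (e κ.1) (e κ.2) e3) (tp (e κ'.1) (e κ'.2) e3) -
      ((E0 + ω / 2) * idm κ κ' + gridM K H w κ κ')| ≤
      2 * δm + 2 * M ^ 2 * τ3 + K ^ 2 * (3 * (wm * εb)) + 8 * M ^ 9 * err + 4096 * M ^ 6 * η1 := by
  have o := orb_e B hC (hL.trans hLM)
  have oz := orb_z Z hC (hz.trans hLM)
  have hM := oz.nonneg
  have c := fun κ : Fin K × Fin K => c1c_orb (o κ.1) (o κ.2) oz
  have cκ := cc_of_c1c (c κ)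
  rw [qb_comm, qb_orb (o _) (o _) oz hV.potOK hD.pot (E0 + ω / 2) (c κ), ip_comm, on_orb B Z]
  have cz : Continuous fun z : ℝ => ω ^ 2 * z ^ 2 / 2 - ω / 2 := by fun_prop
  have i1 := (cc_tp hM (res_cont (o κ'.1) B.u_cont) (o κ'.2).bd.cont oz.bd.cont
    ((o _).sup.res u) (o _).sup oz.sup).int_mul cκ
  have i2 := (cc_tp hM (o κ'.1).bd.cont (res_cont (o κ'.2) B.u_cont) oz.bd.cont
    (o _).sup ((o _).sup.res u) oz.sup).int_mul cκ
  have i3 := (cc_tp hM (o κ'.1).bd.cont (o κ'.2).bd.cont (res_cont oz cz)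
    (o _).sup (o _).sup (oz.sup.res _)).int_mul cκ
  have i4 : Integrable fun x =>
      wfun K w b x * tp (e κ'.1) (e κ'.2) e3 x * tp (e κ.1) (e κ.2) e3 x :=
    (((wfun_cont B w).mul (cc_of_c1c (c κ')).1).mul cκ.1).integrable_of_hasCompactSupport
      cκ.2.mul_left
  have mR : Measurable fun x : P3 =>
      V x - (E0 + u (x 0) + u (x 1) + wfun K w b x + ω ^ 2 * x 2 ^ 2 / 2) := by
    have := B.u_cont
    have := wfun_cont B w
    exact hV.1.sub (by fun_prop : Continuous fun x : P3 =>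
      E0 + u (x 0) + u (x 1) + wfun K w b x + ω ^ 2 * x 2 ^ 2 / 2).measurable
  obtain ⟨i5, b5⟩ := int_box (B := err * (M * M * M) * (M * M * M)) hM
    ((mR.fun_mul (cc_of_c1c (c κ')).1.measurable).fun_mul cκ.1.measurable) (fun x => by
      rw [abs_mul]
      exact mul_le_mul (rem_le B Z hC herr hR _ _ x) (tp_abs_le (o _).bd.bd (o _).bd.bd oz.bd.bd x)
        (abs_nonneg _) (by positivity))
    (fun x hx => tp_supp (o _).sup (o _).sup oz.sup x (right_ne_zero_of_mul hx))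
  have b4 := w_entry B Z hC (hL.trans hLM) (hz.trans hLM) hε1 hw κ κ'
  have b6 : |∫ x, D x * (tp (e κ'.1) (e κ'.2) e3 x * tp (e κ.1) (e κ.2) e3 x)| ≤
      4096 * M ^ 6 * η1 := by
    simp only [tp_mul]
    refine (hD.weak _ _ (bdM_tp ((o _).bd.mul (o _).bd) ((o _).bd.mul (o _).bd) (oz.bd.mul oz.bd))
      (tp_supp ((sup_e B hL _).mul_right _) ((sup_e B hL _).mul_right _)
        (Sup.mul_right (fun z hz' => (Z.e_supp z hz').trans hz) _))).trans (le_of_eq ?_)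
    ring
  have b3 : |∫ t, res1 (fun z => ω ^ 2 * z ^ 2 / 2 - ω / 2) e3 t * e3 t| ≤ τ3 * M * (2 * M) :=
    (oz.sup.mul_left _).abs_int_le hM fun t => by
      rw [abs_mul]
      exact mul_le_mul (Z.res_bd t) (oz.bd.bd t) (abs_nonneg _)
        ((abs_nonneg _).trans (Z.res_bd t))
  have b1 := B.mat _ κ.1.2 _ κ'.1.2
  have b2 := B.mat _ κ.2.2 _ κ'.2.2
  simp only [r0_eq V (wfun K w b) E0 ω u, add_mul]
  rw [integral_add (iadd (iadd (iadd i1 i2) i3) i4) i5, integral_add (iadd (iadd i1 i2) i3) i4,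
    integral_add (iadd i1 i2) i3, integral_add i1 i2, integral_tp_mul, integral_tp_mul,
    integral_tp_mul, Z.on]
  simp only [mul_comm (e κ'.1 _), mul_comm (e κ'.2 _), mul_comm (res1 u _ _)]
  rw [B.on _ κ.1.2 _ κ'.1.2, B.on _ κ.2.2 _ κ'.2.2, idm_fin, idm_fin, gridM]
  have a1 := abs_idm_le κ.1 κ'.1
  have a2 := abs_idm_le κ.2 κ'.2
  have hδ : 0 ≤ δm := (abs_nonneg _).trans b1
  have k1 := mul_le_mul b1 a2 (abs_nonneg _) hδ
  have k2 := mul_le_mul a1 b2 (abs_nonneg _) zero_le_one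
  have k3 := mul_le_mul (mul_le_one₀ a1 (abs_nonneg _) a2) b3 (abs_nonneg _) zero_le_one
  rw [← abs_mul] at k1 k2
  rw [← abs_mul, ← abs_mul] at k3
  rw [abs_le] at *
  constructor <;> nlinarith [k1.1, k1.2, k2.1, k2.2, k3.1, k3.2, b4.1, b4.2, b5.1, b5.2, b6.1, b6.2]

end Ent

end Vale.Agent.P370Z.ASM
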