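import Vale.Agent.P370Z.Basic

/-!
# P370, block ASM: the gap of a tensor sum
-/

namespace Vale.Agent.P370Z.ASM

open MeasureTheory Finset

/-- Bounded measurable functions. -/
def BM {X : Type} [MeasurableSpace X] (f : X → ℝ) : Prop := Measurable f ∧ ∃ B, ∀ x, |f x| ≤ B

section BM

variable {X Y : Type} [MeasurableSpace X] [MeasurableSpace Y]

theorem BM.int {f : X → ℝ} (h : BM f) (μ : Measure X) [IsFiniteMeasure μ] : Integrable f μ := by
  obtain ⟨B, hB⟩ := h.2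
  exact Integrable.of_bound h.1.aestronglyMeasurable B
    (Filter.Eventually.of_forall fun x => by simpa using hB x)

theorem BM.const (c : ℝ) : BM fun _ : X => c := ⟨measurable_const, |c|, fun _ => le_rfl⟩

theorem BM.mul {f g : X → ℝ} (hf : BM f) (hg : BM g) : BM fun x => f x * g x := by
  obtain ⟨A, hA⟩ := hf.2
  obtain ⟨B, hB⟩ := hg.2
  refine ⟨hf.1.mul hg.1, A * B, fun x => ?_⟩
  rw [abs_mul]
  exact mul_le_mul (hA x) (hB x) (abs_nonneg _) ((abs_nonneg _).trans (hA x))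

theorem BM.add {f g : X → ℝ} (hf : BM f) (hg : BM g) : BM fun x => f x + g x := by
  obtain ⟨A, hA⟩ := hf.2
  obtain ⟨B, hB⟩ := hg.2
  exact ⟨hf.1.add hg.1, A + B, fun x => (abs_add_le _ _).trans (add_le_add (hA x) (hB x))⟩

theorem BM.sub {f g : X → ℝ} (hf : BM f) (hg : BM g) : BM fun x => f x - g x := by
  obtain ⟨A, hA⟩ := hf.2
  obtain ⟨B, hB⟩ := hg.2
  exact ⟨hf.1.sub hg.1, A + B, fun x => (abs_sub _ _).trans (add_le_add (hA x) (hB x))⟩

theorem BM.pow2 {f : X → ℝ} (hf : BM f) : BM fun x => f x ^ 2 := by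
  simpa only [pow_two] using hf.mul hf

theorem BM.sum {ι : Type} (s : Finset ι) {f : ι → X → ℝ} (hf : ∀ i, BM (f i)) :
    BM fun x => ∑ i ∈ s, f i x := by
  classical
  induction s using Finset.induction_on with
  | empty => simpa using BM.const (X := X) 0
  | insert a s ha ih =>
    simp only [Finset.sum_insert ha]
    exact (hf a).add ih

theorem BM.comp {f : X → ℝ} (hf : BM f) {g : Y → X} (hg : Measurable g) : BM fun y => f (g y) := by
  obtain ⟨A, hA⟩ := hf.2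
  exact ⟨hf.1.comp hg, A, fun y => hA _⟩

theorem BM.fst {f : X → ℝ} (hf : BM f) : BM fun p : X × Y => f p.1 := hf.comp measurable_fst

theorem BM.snd {f : Y → ℝ} (hf : BM f) : BM fun p : X × Y => f p.2 := hf.comp measurable_snd

theorem BM.left {f : X × Y → ℝ} (hf : BM f) (y : Y) : BM fun x => f (x, y) :=
  hf.comp measurable_prodMk_right

theorem BM.right {f : X × Y → ℝ} (hf : BM f) (x : X) : BM fun y => f (x, y) :=
  hf.comp measurable_prodMk_left

theorem BM.int_right {f : X × Y → ℝ} (hf : BM f) (ν : Measure Y) [IsFiniteMeasure ν] :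
    BM fun x => ∫ y, f (x, y) ∂ν := by
  obtain ⟨A, hA⟩ := hf.2
  refine ⟨(hf.1.stronglyMeasurable.integral_prod_right' (ν := ν)).measurable, A * ν.real Set.univ,
    fun x => ?_⟩
  exact norm_integral_le_of_norm_le_const (f := fun y => f (x, y))
    (Filter.Eventually.of_forall fun y => by simpa using hA (x, y))

theorem BM.int_left {f : X × Y → ℝ} (hf : BM f) (μ : Measure X) [IsFiniteMeasure μ] :
    BM fun y => ∫ x, f (x, y) ∂μ :=
  (hf.comp (Y := Y × X) measurable_swap).int_right μ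

theorem BM.indicator {f : X → ℝ} (hf : BM f) {s : Set X} (hs : MeasurableSet s) :
    BM (s.indicator f) := by
  obtain ⟨A, hA⟩ := hf.2
  refine ⟨hf.1.indicator hs, |A|, fun x => ?_⟩
  by_cases hx : x ∈ s
  · rw [Set.indicator_of_mem hx]
    exact (hA x).trans (le_abs_self _)
  · rw [Set.indicator_of_notMem hx]
    simp

end BM

section Pyth

variable {X ι : Type} [MeasurableSpace X] [Fintype ι] [DecidableEq ι] (μ : Measure X)
  [IsFiniteMeasure μ] {φ : ι → X → ℝ}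

theorem pyth (hφ : ∀ i, BM (φ i)) (hon : ∀ i j, ∫ x, φ i x * φ j x ∂μ = idm i j) {f : X → ℝ}
    (hf : BM f) :
    ∫ x, (f x - ∑ i, φ i x * ∫ t, φ i t * f t ∂μ) ^ 2 ∂μ =
      ∫ x, f x ^ 2 ∂μ - ∑ i, (∫ t, φ i t * f t ∂μ) ^ 2 := by
  set a : ι → ℝ := fun i => ∫ t, φ i t * f t ∂μ with ha
  have h1 : ∀ x, (f x - ∑ i, φ i x * a i) ^ 2 =
      f x ^ 2 - 2 * (∑ i, a i * (φ i x * f x)) + ∑ i, ∑ j, a i * a j * (φ i x * φ j x) := by
    intro x
    have h2 : (∑ i, φ i x * a i) ^ 2 = ∑ i, ∑ j, a i * a j * (φ i x * φ j x) := by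
      rw [pow_two, Finset.sum_mul_sum]
      exact Finset.sum_congr rfl fun i _ => Finset.sum_congr rfl fun j _ => by ring
    have h3 : f x * ∑ i, φ i x * a i = ∑ i, a i * (φ i x * f x) := by
      rw [Finset.mul_sum]
      exact Finset.sum_congr rfl fun i _ => by ring
    rw [← h2, ← h3]
    ring
  have b1 : ∀ i, BM fun x => a i * (φ i x * f x) := fun i => (BM.const _).mul ((hφ i).mul hf)
  have b2 : ∀ i j, BM fun x => a i * a j * (φ i x * φ j x) := fun i j =>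
    (BM.const _).mul ((hφ i).mul (hφ j))
  have b3 : ∀ i, BM fun x => ∑ j, a i * a j * (φ i x * φ j x) := fun i => BM.sum _ (b2 i)
  change ∫ x, (f x - ∑ i, φ i x * a i) ^ 2 ∂μ = _ - ∑ i, a i ^ 2
  simp only [h1]
  rw [integral_add ((hf.pow2.sub ((BM.const 2).mul (BM.sum _ b1))).int μ) ((BM.sum _ b3).int μ),
    integral_sub (hf.pow2.int μ) (((BM.const 2).mul (BM.sum _ b1)).int μ), integral_const_mul,
    integral_finsetSum _ fun i _ => (b1 i).int μ, integral_finsetSum _ fun i _ => (b3 i).int μ]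
  have h4 : ∀ i, ∫ x, ∑ j, a i * a j * (φ i x * φ j x) ∂μ = a i ^ 2 := by
    intro i
    rw [integral_finsetSum _ fun j _ => (b2 i j).int μ]
    simp only [integral_const_mul, hon, idm, mul_ite, mul_one, mul_zero, Finset.sum_ite_eq,
      Finset.mem_univ, if_true]
    ring
  have h5 : ∀ i, ∫ x, a i * (φ i x * f x) ∂μ = a i ^ 2 := by
    intro i
    rw [integral_const_mul, pow_two]
  simp only [h4, h5]
  ring

theorem bessel' (hφ : ∀ i, BM (φ i)) (hon : ∀ i j, ∫ x, φ i x * φ j x ∂μ = idm i j) {f : X → ℝ}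
    (hf : BM f) : ∑ i, (∫ t, φ i t * f t ∂μ) ^ 2 ≤ ∫ x, f x ^ 2 ∂μ := by
  have h1 := pyth μ hφ hon hf
  have h2 : 0 ≤ ∫ x, (f x - ∑ i, φ i x * ∫ t, φ i t * f t ∂μ) ^ 2 ∂μ :=
    integral_nonneg fun _ => sq_nonneg _
  linarith

end Pyth

section Tens

variable {X Y ι ι' : Type} [MeasurableSpace X] [MeasurableSpace Y] [Fintype ι] [DecidableEq ι]
  [Fintype ι'] [DecidableEq ι'] (μ : Measure X) [IsFiniteMeasure μ] (ν : Measure Y)
  [IsFiniteMeasure ν] {φ : ι → X → ℝ} {ψ : ι' → Y → ℝ}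

theorem tens_proj (hφ : ∀ i, BM (φ i)) (hon : ∀ i j, ∫ x, φ i x * φ j x ∂μ = idm i j)
    (hψ : ∀ i, BM (ψ i)) (hon' : ∀ i j, ∫ y, ψ i y * ψ j y ∂ν = idm i j) {g : X × Y → ℝ}
    (hg : BM g) :
    (∫ y, ∑ i, (∫ x, φ i x * g (x, y) ∂μ) ^ 2 ∂ν) + ∫ x, ∑ j, (∫ y, ψ j y * g (x, y) ∂ν) ^ 2 ∂μ ≤
      ∫ p, g p ^ 2 ∂(μ.prod ν) + ∑ i, ∑ j, (∫ p, φ i p.1 * ψ j p.2 * g p ∂(μ.prod ν)) ^ 2 := by
  set c : ι → Y → ℝ := fun i y => ∫ x, φ i x * g (x, y) ∂μ with hc
  set d : ι' → X → ℝ := fun j x => ∫ y, ψ j y * g (x, y) ∂ν with hd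
  set a : ι → ι' → ℝ := fun i j => ∫ p, φ i p.1 * ψ j p.2 * g p ∂(μ.prod ν) with ha
  have bc : ∀ i, BM (c i) := fun i => (((hφ i).fst (Y := Y)).mul hg).int_left μ
  have bd : ∀ j, BM (d j) := fun j => (((hψ j).snd (X := X)).mul hg).int_right ν
  have ba : ∀ i j, BM fun p : X × Y => φ i p.1 * ψ j p.2 * g p := fun i j =>
    ((hφ i).fst.mul (hψ j).snd).mul hg
  have a1 : ∀ i j, ∫ x, φ i x * d j x ∂μ = a i j := by
    intro i j
    simp only [ha, hd]
    rw [integral_prod _ ((ba i j).int _)]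
    simp only [mul_assoc, integral_const_mul]
  have a2 : ∀ i j, ∫ y, ψ j y * c i y ∂ν = a i j := by
    intro i j
    simp only [ha, hc]
    rw [integral_prod_symm _ ((ba i j).int _)]
    refine integral_congr_ae (Filter.Eventually.of_forall fun y => ?_)
    simp only
    rw [← integral_const_mul]
    exact integral_congr_ae (Filter.Eventually.of_forall fun x => by simp only; ring)
  set h : X × Y → ℝ := fun p => g p - ∑ i, φ i p.1 * c i p.2 with hh
  have bh : BM h := hg.sub (BM.sum _ fun i => (hφ i).fst.mul (bc i).snd)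
  have s1 : ∀ x, ∑ j, (d j x - ∑ i, φ i x * a i j) ^ 2 ≤ ∫ y, h (x, y) ^ 2 ∂ν := by
    intro x
    refine le_of_eq_of_le ?_ (bessel' ν hψ hon' (bh.right x))
    refine Finset.sum_congr rfl fun j _ => ?_
    congr 1
    have e1 : ∀ y, ψ j y * h (x, y) = ψ j y * g (x, y) - ∑ i, φ i x * (ψ j y * c i y) := by
      intro y
      simp only [hh, mul_sub, Finset.mul_sum]
      congr 1
      exact Finset.sum_congr rfl fun i _ => by ring
    have b1 : ∀ i, BM fun y => φ i x * (ψ j y * c i y) := fun i =>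
      (BM.const _).mul ((hψ j).mul (bc i))
    simp only [e1]
    rw [integral_sub (((hψ j).mul (hg.right x)).int ν) ((BM.sum _ b1).int ν),
      integral_finsetSum _ fun i _ => (b1 i).int ν]
    simp only [integral_const_mul, a2, hd]
  have b2 : ∀ j, BM fun x => (d j x - ∑ i, φ i x * a i j) ^ 2 := fun j =>
    ((bd j).sub (BM.sum _ fun i => (hφ i).mul (BM.const _))).pow2
  have s2 := integral_mono ((BM.sum univ b2).int μ) ((bh.pow2.int_right ν).int μ) s1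
  rw [integral_finsetSum _ fun j _ => (b2 j).int μ, ← integral_prod _ (bh.pow2.int _),
    integral_prod_symm _ (bh.pow2.int _)] at s2
  have s3 : ∀ j, ∫ x, (d j x - ∑ i, φ i x * a i j) ^ 2 ∂μ = ∫ x, d j x ^ 2 ∂μ - ∑ i, a i j ^ 2 := by
    intro j
    have := pyth μ hφ hon (bd j)
    simpa only [a1] using this
  have s4 : ∀ y, ∫ x, h (x, y) ^ 2 ∂μ = ∫ x, g (x, y) ^ 2 ∂μ - ∑ i, c i y ^ 2 := fun y =>
    pyth μ hφ hon (hg.left y)
  simp only [s3, s4] at s2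
  rw [integral_sub ((hg.pow2.int_left μ).int ν) ((BM.sum _ fun i => (bc i).pow2).int ν),
    ← integral_prod_symm _ (hg.pow2.int _), Finset.sum_sub_distrib, Finset.sum_comm] at s2
  rw [integral_finsetSum (μ := μ) _ fun j _ => (bd j).pow2.int μ]
  linarith

/-- Gaps on slices give a gap for the sum. -/
theorem tens_gap (hφ : ∀ i, BM (φ i)) (hon : ∀ i j, ∫ x, φ i x * φ j x ∂μ = idm i j)
    (hψ : ∀ i, BM (ψ i)) (hon' : ∀ i j, ∫ y, ψ i y * ψ j y ∂ν = idm i j) {g t t' : X × Y → ℝ}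
    (hg : BM g) (ht : BM t) (ht' : BM t') {Γ δ δ' : ℝ} (hΓ : 0 ≤ Γ)
    (h1 : ∀ y, Γ * (∫ x, g (x, y) ^ 2 ∂μ - ∑ i, (∫ x, φ i x * g (x, y) ∂μ) ^ 2) -
      δ * ∫ x, g (x, y) ^ 2 ∂μ ≤ ∫ x, t (x, y) ∂μ)
    (h2 : ∀ x, Γ * (∫ y, g (x, y) ^ 2 ∂ν - ∑ j, (∫ y, ψ j y * g (x, y) ∂ν) ^ 2) -
      δ' * ∫ y, g (x, y) ^ 2 ∂ν ≤ ∫ y, t' (x, y) ∂ν) :
    Γ * (∫ p, g p ^ 2 ∂(μ.prod ν) - ∑ i, ∑ j, (∫ p, φ i p.1 * ψ j p.2 * g p ∂(μ.prod ν)) ^ 2) -
      (δ + δ') * ∫ p, g p ^ 2 ∂(μ.prod ν) ≤ ∫ p, (t p + t' p) ∂(μ.prod ν) := by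
  have bc : BM fun y => ∑ i, (∫ x, φ i x * g (x, y) ∂μ) ^ 2 :=
    BM.sum _ fun i => ((((hφ i).fst (Y := Y)).mul hg).int_left μ).pow2
  have bd : BM fun x => ∑ j, (∫ y, ψ j y * g (x, y) ∂ν) ^ 2 :=
    BM.sum _ fun j => ((((hψ j).snd (X := X)).mul hg).int_right ν).pow2
  have b1 := hg.pow2.int_left μ
  have b2 := hg.pow2.int_right ν
  have s1 := integral_mono ((((BM.const Γ).mul (b1.sub bc)).sub ((BM.const δ).mul b1)).int ν)
    ((ht.int_left μ).int ν) h1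
  have s2 := integral_mono ((((BM.const Γ).mul (b2.sub bd)).sub ((BM.const δ').mul b2)).int μ)
    ((ht'.int_right ν).int μ) h2
  rw [integral_sub (((BM.const Γ).mul (b1.sub bc)).int ν) (((BM.const δ).mul b1).int ν),
    integral_const_mul, integral_const_mul, integral_sub (b1.int ν) (bc.int ν),
    ← integral_prod_symm _ (hg.pow2.int _), ← integral_prod_symm _ (ht.int _)] at s1
  rw [integral_sub (((BM.const Γ).mul (b2.sub bd)).int μ) (((BM.const δ').mul b2).int μ),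
    integral_const_mul, integral_const_mul, integral_sub (b2.int μ) (bd.int μ),
    ← integral_prod _ (hg.pow2.int _), ← integral_prod _ (ht'.int _)] at s2
  rw [integral_add (ht.int _) (ht'.int _)]
  have s3 := mul_le_mul_of_nonneg_left (tens_proj μ ν hφ hon hψ hon' hg) hΓ
  linarith

omit [Fintype ι] [Fintype ι'] [IsFiniteMeasure μ] in
theorem tens_on (hon : ∀ i j, ∫ x, φ i x * φ j x ∂μ = idm i j)
    (hon' : ∀ i j, ∫ y, ψ i y * ψ j y ∂ν = idm i j) [IsFiniteMeasure μ] (κ κ' : ι × ι') :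
    ∫ p, (φ κ.1 p.1 * ψ κ.2 p.2) * (φ κ'.1 p.1 * ψ κ'.2 p.2) ∂(μ.prod ν) = idm κ κ' := by
  have h1 : ∀ p : X × Y, (φ κ.1 p.1 * ψ κ.2 p.2) * (φ κ'.1 p.1 * ψ κ'.2 p.2) =
      (φ κ.1 p.1 * φ κ'.1 p.1) * (ψ κ.2 p.2 * ψ κ'.2 p.2) := fun p => by ring
  simp only [h1]
  rw [integral_prod_mul (fun x => φ κ.1 x * φ κ'.1 x) (fun y => ψ κ.2 y * ψ κ'.2 y), hon, hon']
  obtain ⟨i, j⟩ := κ
  obtain ⟨i', j'⟩ := κ'
  by_cases h : i = i' <;> by_cases h' : j = j' <;> simp [idm, h, h']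

end Tens

end Vale.Agent.P370Z.ASM
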