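import Vale.Agent.P370Z.ASM.Bd
import Vale.Agent.P370Z.ASM.Tens

/-!
# P370, block ASM: the gap above the three-dimensional band
-/

namespace Vale.Agent.P370Z.ASM

open MeasureTheory Finset

/-- Coordinates. -/
def TT (p : (ℝ × ℝ) × ℝ) : P3 := ![p.1.1, p.1.2, p.2]

@[simp] theorem TT_zero (p : (ℝ × ℝ) × ℝ) : TT p 0 = p.1.1 := rfl
@[simp] theorem TT_one (p : (ℝ × ℝ) × ℝ) : TT p 1 = p.1.2 := rfl
@[simp] theorem TT_two (p : (ℝ × ℝ) × ℝ) : TT p 2 = p.2 := rfl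

theorem continuous_TT : Continuous TT := by
  refine continuous_pi fun k => ?_
  fin_cases k
  · exact continuous_fst.comp continuous_fst
  · exact continuous_snd.comp continuous_fst
  · exact continuous_snd

theorem map_TT : Measure.map TT (((volume : Measure ℝ).prod volume).prod volume) = volume := by
  symm
  refine Measure.pi_eq fun s hs => ?_
  rw [Measure.map_apply continuous_TT.measurable (MeasurableSet.univ_pi hs)]
  have h1 : TT ⁻¹' Set.univ.pi s = (s 0 ×ˢ s 1) ×ˢ s 2 := by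
    ext p
    simp [Fin.forall_fin_succ, and_assoc]
  rw [h1, Measure.prod_prod, Measure.prod_prod, Fin.prod_univ_three]

theorem integral_TT {F : P3 → ℝ} (hF : Measurable F) {R : ℝ}
    (h : ∀ x, F x ≠ 0 → ∀ k, |x k| ≤ R) :
    ∫ x, F x = ∫ p, F (TT p) ∂(((volume.restrict (Set.Icc (-R) R)).prod
      (volume.restrict (Set.Icc (-R) R))).prod (volume.restrict (Set.Icc (-R) R))) := by
  rw [Measure.prod_restrict, Measure.prod_restrict,
    setIntegral_eq_integral_of_forall_compl_eq_zero, ← map_TT,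
    integral_map continuous_TT.measurable.aemeasurable hF.aestronglyMeasurable]
  intro p hp
  by_contra hc
  exact hp ⟨⟨abs_le.1 (h _ hc 0), abs_le.1 (h _ hc 1)⟩, abs_le.1 (h _ hc 2)⟩

theorem slice_deriv {v : P3 → ℝ} (hv : C1c v) (p : P3) (i : Fin 3) (t : ℝ) :
    deriv (fun t => v (Function.update p i t)) t = pd i v (Function.update p i t) :=
  ((c1c_diff hv _).hasFDerivAt.comp_hasDerivAt t (hasDerivAt_update p i t)).deriv

theorem slice_contDiff {v : P3 → ℝ} (hv : C1c v) (p : P3) (i : Fin 3) :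
    ContDiff ℝ 1 fun t => v (Function.update p i t) :=
  hv.1.comp (contDiff_update 1 p i)

theorem upd0 (x y z : ℝ) : Function.update (TT ((0, y), z)) 0 x = TT ((x, y), z) := by
  funext k
  fin_cases k <;> simp

theorem upd1 (x y z : ℝ) : Function.update (TT ((x, 0), z)) 1 y = TT ((x, y), z) := by
  funext k
  fin_cases k <;> simp

theorem upd2 (q : ℝ × ℝ) (z : ℝ) : Function.update (TT (q, 0)) 2 z = TT (q, z) := by
  funext k
  fin_cases k <;> simp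

theorem Cc.bm {f : P3 → ℝ} (hf : Cc f) : BM f := ⟨hf.1.measurable, hf.bdd⟩

theorem B1.bm {k : ℕ} {C : ℝ} {f : ℝ → ℝ} (h : B1 k C f) : BM f := ⟨h.cont.measurable, C, h.bd⟩

theorem idm_fin {K : ℕ} (k l : Fin K) : idm (k : ℕ) (l : ℕ) = idm k l := by
  simp [idm, Fin.ext_iff]

theorem exists_radius {v : P3 → ℝ} (hv : C1c v) (L : ℝ) :
    ∃ R, L ≤ R ∧ (∀ x, v x ≠ 0 → ∀ k, |x k| ≤ R) ∧ ∀ i x, pd i v x ≠ 0 → ∀ k, |x k| ≤ R := by
  obtain ⟨r, hr⟩ := hv.2.isCompact.isBounded.subset_closedBall (0 : P3)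
  have h1 : ∀ x ∈ tsupport v, ∀ k, |x k| ≤ max L r := by
    intro x hx k
    have h2 := hr hx
    rw [mem_closedBall_zero_iff] at h2
    exact ((norm_le_pi_norm x k).trans h2).trans (le_max_right _ _)
  refine ⟨max L r, le_max_left _ _, fun x hx => h1 x (subset_tsupport _ hx), fun i x hx => ?_⟩
  refine h1 x (support_fderiv_subset ℝ ?_)
  intro h0
  apply hx
  simp [pd, h0]

section Gap

variable {K : ℕ} {Λ : ℝ} {u : ℝ → ℝ} {e b : ℕ → ℝ → ℝ} {H : ℕ → ℕ → ℝ} {zl zr sb : ℕ → ℝ}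
  {C Γ τ δm δg εb εz : ℝ}

theorem int_restrict (B : Band1 K Λ u e b H zl zr sb C Γ τ δm δg εb εz) {s : Set ℝ}
    (hs : Set.Icc 0 Λ ⊆ s) (k : Fin K) (f : ℝ → ℝ) :
    ∫ x in s, e k x * f x = ∫ x, e k x * f x := by
  refine setIntegral_eq_integral_of_forall_compl_eq_zero fun x hx => ?_
  by_contra hc
  have h1 := B.e_supp k k.2 x (left_ne_zero_of_mul hc)
  exact hx (hs ⟨by linarith [h1.1], by linarith [h1.2]⟩)

theorem on_restrict (B : Band1 K Λ u e b H zl zr sb C Γ τ δm δg εb εz) {s : Set ℝ}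
    (hs : Set.Icc 0 Λ ⊆ s) (k l : Fin K) : ∫ x in s, e k x * e l x = idm k l := by
  rw [int_restrict B hs, B.on k k.2 l l.2, idm_fin]

theorem gap1 (B : Band1 K Λ u e b H zl zr sb C Γ τ δm δg εb εz) {g : ℝ → ℝ}
    (hg : ContDiff ℝ 1 g) :
    Γ * ((∫ x in Set.Icc 0 Λ, g x ^ 2) - ∑ k : Fin K, (∫ x in Set.Icc 0 Λ, e k x * g x) ^ 2) -
      δg * ∫ x in Set.Icc 0 Λ, g x ^ 2 ≤
      ∫ x in Set.Icc 0 Λ, ((1 / 2) * deriv g x ^ 2 + u x * g x ^ 2) := by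
  have h1 := B.gap g hg
  rw [Finset.sum_range] at h1
  simp only [int_restrict B subset_rfl]
  exact h1

theorem bm_u (B : Band1 K Λ u e b H zl zr sb C Γ τ δm δg εb εz) : BM u :=
  ⟨B.u_cont.measurable, C, B.u_bd⟩

theorem bm_e (B : Band1 K Λ u e b H zl zr sb C Γ τ δm δg εb εz) (k : Fin K) : BM (e k) :=
  B1.bm (B.e_bd k k.2)

/-- The energy density in the first two directions. -/
noncomputable def t01 (Λ : ℝ) (u : ℝ → ℝ) (v : P3 → ℝ) (p : (ℝ × ℝ) × ℝ) : ℝ :=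
  ((Set.Icc 0 Λ ×ˢ Set.Icc 0 Λ) ×ˢ Set.univ).indicator (fun p =>
    ((1 / 2) * pd 0 v (TT p) ^ 2 + u p.1.1 * v (TT p) ^ 2) +
      ((1 / 2) * pd 1 v (TT p) ^ 2 + u p.1.2 * v (TT p) ^ 2)) p +
  ((Set.Icc 0 Λ ×ˢ Set.Icc 0 Λ)ᶜ ×ˢ Set.univ).indicator (fun p => v (TT p) ^ 2) p

theorem bm_TT {f : P3 → ℝ} (hf : Cc f) : BM fun p => f (TT p) :=
  hf.bm.comp continuous_TT.measurable

theorem bm_t0 {v : P3 → ℝ} (hv : C1c v) (hu : BM u) :
    BM fun p => (1 / 2) * pd 0 v (TT p) ^ 2 + u p.1.1 * v (TT p) ^ 2 :=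
  ((BM.const _).mul (bm_TT (cc_pd hv 0)).pow2).add
    ((hu.fst.fst).mul (bm_TT (cc_of_c1c hv)).pow2)

theorem bm_t1 {v : P3 → ℝ} (hv : C1c v) (hu : BM u) :
    BM fun p => (1 / 2) * pd 1 v (TT p) ^ 2 + u p.1.2 * v (TT p) ^ 2 :=
  ((BM.const _).mul (bm_TT (cc_pd hv 1)).pow2).add
    ((hu.snd.fst).mul (bm_TT (cc_of_c1c hv)).pow2)

theorem bm_t2 {v : P3 → ℝ} (hv : C1c v) (hu : BM u) :
    BM fun p => (1 / 2) * pd 2 v (TT p) ^ 2 + u p.2 * v (TT p) ^ 2 :=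
  ((BM.const _).mul (bm_TT (cc_pd hv 2)).pow2).add (hu.snd.mul (bm_TT (cc_of_c1c hv)).pow2)

theorem bm_t01 {v : P3 → ℝ} (hv : C1c v) (hu : BM u) : BM (t01 Λ u v) :=
  (((bm_t0 hv hu).add (bm_t1 hv hu)).indicator
    ((measurableSet_Icc.prod measurableSet_Icc).prod MeasurableSet.univ)).add
  ((bm_TT (cc_of_c1c hv)).pow2.indicator
    ((measurableSet_Icc.prod measurableSet_Icc).compl.prod MeasurableSet.univ))

theorem gap2 (B : Band1 K Λ u e b H zl zr sb C Γ τ δm δg εb εz) (hΓ0 : 0 ≤ Γ) (hΓ1 : Γ ≤ 1)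
    (hδ : 0 ≤ δg) {v : P3 → ℝ} (hv : C1c v) {s : Set ℝ} (hs : Set.Icc 0 Λ ⊆ s)
    [IsFiniteMeasure (volume.restrict s)] (z : ℝ) :
    Γ * (∫ q, v (TT (q, z)) ^ 2 ∂((volume.restrict s).prod (volume.restrict s)) -
      ∑ κ : Fin K × Fin K, (∫ q, e κ.1 q.1 * e κ.2 q.2 * v (TT (q, z))
        ∂((volume.restrict s).prod (volume.restrict s))) ^ 2) -
      2 * δg * ∫ q, v (TT (q, z)) ^ 2 ∂((volume.restrict s).prod (volume.restrict s)) ≤
      ∫ q, t01 Λ u v (q, z) ∂((volume.restrict s).prod (volume.restrict s)) := by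
  set μ2 := (volume.restrict s).prod (volume.restrict s) with hμ2
  set A : Set (ℝ × ℝ) := Set.Icc 0 Λ ×ˢ Set.Icc 0 Λ with hA
  have mA : MeasurableSet A := measurableSet_Icc.prod measurableSet_Icc
  have hr : μ2.restrict A =
      (volume.restrict (Set.Icc 0 Λ)).prod (volume.restrict (Set.Icc 0 Λ)) := by
    rw [hμ2, hA, ← Measure.prod_restrict, Measure.restrict_restrict measurableSet_Icc,
      Set.inter_eq_left.2 hs]
  have bg : BM fun q => v (TT (q, z)) := (bm_TT (cc_of_c1c hv)).left z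
  have h1 := tens_gap (volume.restrict (Set.Icc 0 Λ)) (volume.restrict (Set.Icc 0 Λ))
    (bm_e B) (on_restrict B subset_rfl) (bm_e B) (on_restrict B subset_rfl) bg
    ((bm_t0 hv (bm_u B)).left z) ((bm_t1 hv (bm_u B)).left z) (δ := δg) (δ' := δg) hΓ0
    (fun y => by
      have h2 := gap1 B (slice_contDiff hv (TT ((0, y), z)) 0)
      simp only [slice_deriv hv] at h2
      simpa only [upd0] using h2)
    (fun x => by
      have h2 := gap1 B (slice_contDiff hv (TT ((x, 0), z)) 1)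
      simp only [slice_deriv hv] at h2
      simpa only [upd1] using h2)
  rw [← hr] at h1
  have h3 : ∀ κ : Fin K × Fin K, ∫ q, e κ.1 q.1 * e κ.2 q.2 * v (TT (q, z)) ∂μ2 =
      ∫ q in A, e κ.1 q.1 * e κ.2 q.2 * v (TT (q, z)) ∂μ2 := by
    intro κ
    refine (setIntegral_eq_integral_of_forall_compl_eq_zero fun q hq => ?_).symm
    by_contra hc
    have h4 := B.e_supp κ.1 κ.1.2 _ (left_ne_zero_of_mul (left_ne_zero_of_mul hc))
    have h5 := B.e_supp κ.2 κ.2.2 _ (right_ne_zero_of_mul (left_ne_zero_of_mul hc))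
    exact hq ⟨⟨by linarith [h4.1], by linarith [h4.2]⟩, ⟨by linarith [h5.1], by linarith [h5.2]⟩⟩
  have h6 : ∫ q, t01 Λ u v (q, z) ∂μ2 = (∫ q in A,
      (((1 / 2) * pd 0 v (TT (q, z)) ^ 2 + u q.1 * v (TT (q, z)) ^ 2) +
      ((1 / 2) * pd 1 v (TT (q, z)) ^ 2 + u q.2 * v (TT (q, z)) ^ 2)) ∂μ2) +
      ∫ q in Aᶜ, v (TT (q, z)) ^ 2 ∂μ2 := by
    rw [← integral_add_compl mA (((bm_t01 hv (bm_u B)).left z).int μ2)]
    congr 1
    · refine setIntegral_congr_fun mA fun q hq => ?_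
      simp [t01, ← hA, hq]
    · refine setIntegral_congr_fun mA.compl fun q hq => ?_
      have hq' : q ∉ A := hq
      simp [t01, ← hA, hq']
  have h7 := integral_add_compl mA (bg.pow2.int μ2)
  have h8 : 0 ≤ ∫ q in Aᶜ, v (TT (q, z)) ^ 2 ∂μ2 := integral_nonneg fun _ => sq_nonneg _
  simp only [h3, h6, Fintype.sum_prod_type]
  rw [← h7]
  nlinarith [mul_nonneg hδ h8, mul_nonneg (sub_nonneg.2 hΓ1) h8]

variable {ω z0 L1 : ℝ} {e3 : ℝ → ℝ} {Γ3 τ3 δ3 : ℝ}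

theorem gapz (Z : ZBand ω z0 L1 e3 C Γ3 τ3 δ3) (hΓ : Γ ≤ Γ3) {u3 : ℝ → ℝ} (hu3 : BM u3)
    (h1 : ∀ z, |z| ≤ 2 * L1 → u3 z = ω ^ 2 * z ^ 2 / 2 - ω / 2) (h2 : ∀ z, L1 ≤ |z| → 1 ≤ u3 z)
    {g : ℝ → ℝ} (hg : ContDiff ℝ 1 g) (bg : BM g) {R : ℝ} (hR : z0 + 1 ≤ R) (sg : Sup R g) :
    Γ * ((∫ z in Set.Icc (-R) R, g z ^ 2) - ∑ _j : Unit, (∫ z in Set.Icc (-R) R, e3 z * g z) ^ 2) -
      δ3 * ∫ z in Set.Icc (-R) R, g z ^ 2 ≤
      ∫ z in Set.Icc (-R) R, ((1 / 2) * deriv g z ^ 2 + u3 z * g z ^ 2) := by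
  have h3 := Z.gap u3 hu3.1 hu3.2 h1 h2 g ⟨hg, sg.compact⟩
  have h4 : ∀ f : ℝ → ℝ, Sup R f → ∫ z in Set.Icc (-R) R, f z = ∫ z, f z := by
    intro f hf
    refine setIntegral_eq_integral_of_forall_compl_eq_zero fun x hx => ?_
    by_contra hc
    exact hx (abs_le.1 (hf x hc))
  have se : Sup R e3 := fun z hz => (Z.e_supp z hz).trans hR
  have h5 := bessel' (ι := Unit) (volume.restrict (Set.Icc (-R) R)) (φ := fun _ => e3)
    (fun _ => B1.bm Z.e_bd) (fun _ _ => by rw [h4 _ (se.mul_right _), Z.on]; simp [idm]) bg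
  have s1 : Sup R fun z => g z ^ 2 := fun z hz => sg z (pow_ne_zero_iff two_ne_zero |>.1 hz)
  have s2 : Sup R fun z => (1 / 2) * deriv g z ^ 2 + u3 z * g z ^ 2 := by
    intro z hz
    by_contra hc
    apply hz
    have h6 : g z = 0 := by
      by_contra h6
      exact hc (sg z h6)
    have h7 : deriv g z = 0 := by
      by_contra h7
      exact hc (sg.der z h7)
    simp [h6, h7]
  rw [h4 _ s1, h4 _ s2, h4 _ (se.mul_right g)] at *
  simp only [Finset.univ_unique, Finset.sum_singleton] at h5 ⊢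
  nlinarith [mul_nonneg (sub_nonneg.2 hΓ) (sub_nonneg.2 h5)]

theorem gap3 (B : Band1 K Λ u e b H zl zr sb C Γ τ δm δg εb εz)
    (Z : ZBand ω z0 L1 e3 C Γ3 τ3 δ3) (hΓ0 : 0 ≤ Γ) (hΓ1 : Γ ≤ 1) (hΓ : Γ ≤ Γ3)
    (hδ : 0 ≤ δg) (hΛ : 0 ≤ Λ) {u3 : ℝ → ℝ} (hu3 : BM u3)
    (h1 : ∀ z, |z| ≤ 2 * L1 → u3 z = ω ^ 2 * z ^ 2 / 2 - ω / 2) (h2 : ∀ z, L1 ≤ |z| → 1 ≤ u3 z)
    {V0 : P3 → ℝ} (hV : BM V0) {E ε : ℝ}
    (hin : ∀ x : P3, x 0 ∈ Set.Icc 0 Λ → x 1 ∈ Set.Icc 0 Λ →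
      E + u (x 0) + u (x 1) + u3 (x 2) - ε ≤ V0 x)
    (hout : ∀ x : P3, ¬ (x 0 ∈ Set.Icc 0 Λ ∧ x 1 ∈ Set.Icc 0 Λ) → E + 1 + u3 (x 2) - ε ≤ V0 x)
    {v : P3 → ℝ} (hv : C1c v) :
    Γ * (ip v v - ∑ κ, ip (prodOrb (K := K) e e3 κ) v ^ 2) - (2 * δg + δ3 + ε) * ip v v ≤
      qb V0 v v - E * ip v v := by
  obtain ⟨R, hR, sv, sd⟩ := exists_radius hv (max Λ (z0 + 1))
  have hR1 : Λ ≤ R := (le_max_left _ _).trans hR
  have hR2 : z0 + 1 ≤ R := (le_max_right _ _).trans hR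
  have hs : Set.Icc 0 Λ ⊆ Set.Icc (-R) R := Set.Icc_subset_Icc (by linarith) hR1
  set μ := (volume : Measure ℝ).restrict (Set.Icc (-R) R) with hμ
  have bg := bm_TT (cc_of_c1c hv)
  have se : Sup R e3 := fun z hz => (Z.e_supp z hz).trans hR2
  have h3 := tens_gap (μ.prod μ) μ (φ := fun (κ : Fin K × Fin K) q => e κ.1 q.1 * e κ.2 q.2)
    (ψ := fun (_ : Unit) => e3) (fun κ => (bm_e B κ.1).fst.mul (bm_e B κ.2).snd)
    (tens_on μ μ (φ := fun k : Fin K => e k) (ψ := fun k : Fin K => e k)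
      (on_restrict B hs) (on_restrict B hs)) (fun _ => B1.bm Z.e_bd)
    (fun _ _ => by
      rw [hμ, setIntegral_eq_integral_of_forall_compl_eq_zero, Z.on]
      · simp [idm]
      · intro x hx
        by_contra hc
        exact hx (abs_le.1 (se.mul_right _ x hc))) bg
    (bm_t01 (Λ := Λ) hv (bm_u B)) (bm_t2 hv hu3) (δ := 2 * δg) (δ' := δ3) hΓ0
    (gap2 B hΓ0 hΓ1 hδ hv hs)
    (fun q => by
      have h4 := gapz Z hΓ hu3 h1 h2 (slice_contDiff hv (TT (q, 0)) 2)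
        (by simpa only [upd2] using bg.right q) hR2
        (fun z hz => by simpa using sv _ hz 2)
      simp only [slice_deriv hv] at h4
      simpa only [upd2] using h4)
  have m1 := (cc_of_c1c hv).1.measurable
  have e1 : ip v v = ∫ p, v (TT p) ^ 2 ∂((μ.prod μ).prod μ) := by
    rw [ip, integral_TT (m1.fun_mul m1) fun x hx => sv x (left_ne_zero_of_mul hx)]
    simp only [pow_two, hμ]
  have e2 : ∀ κ : Fin K × Fin K, ip (prodOrb (K := K) e e3 κ) v =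
      ∫ p, e κ.1 p.1.1 * e κ.2 p.1.2 * e3 p.2 * v (TT p) ∂((μ.prod μ).prod μ) := by
    intro κ
    rw [ip, integral_TT (R := R) ?_ fun x hx => sv x (right_ne_zero_of_mul hx)]
    · rfl
    · exact (tp_meas (bm_e B κ.1).1 (bm_e B κ.2).1 (B1.bm Z.e_bd).1).mul m1
  have e3' : ∀ k, ∫ x, pd k v x * pd k v x = ∫ p, pd k v (TT p) ^ 2 ∂((μ.prod μ).prod μ) := by
    intro k
    have m2 := (cc_pd hv k).1.measurable
    rw [integral_TT (m2.fun_mul m2) fun x hx => sd k x (left_ne_zero_of_mul hx)]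
    simp only [pow_two, hμ]
  have e4 : ∫ x, V0 x * (v x * v x) = ∫ p, V0 (TT p) * v (TT p) ^ 2 ∂((μ.prod μ).prod μ) := by
    rw [integral_TT (hV.1.fun_mul (m1.fun_mul m1)) fun x hx =>
      sv x (left_ne_zero_of_mul (right_ne_zero_of_mul hx))]
    simp only [pow_two, hμ]
  have bV : BM fun p => V0 (TT p) := hV.comp continuous_TT.measurable
  have bd : ∀ k, BM fun p => pd k v (TT p) ^ 2 := fun k => (bm_TT (cc_pd hv k)).pow2
  have h5 : ∀ p, (t01 Λ u v p + ((1 / 2) * pd 2 v (TT p) ^ 2 + u3 p.2 * v (TT p) ^ 2)) +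
      (E - ε) * v (TT p) ^ 2 ≤
      (1 / 2) * (∑ k, pd k v (TT p) ^ 2) + V0 (TT p) * v (TT p) ^ 2 := by
    intro p
    rw [Fin.sum_univ_three]
    by_cases hp : p.1 ∈ Set.Icc 0 Λ ×ˢ Set.Icc 0 Λ
    · have h6 := mul_le_mul_of_nonneg_right (hin (TT p) hp.1 hp.2) (sq_nonneg (v (TT p)))
      simp only [t01, Set.indicator, Set.mem_prod, Set.mem_compl_iff, Set.mem_univ, and_true,
        hp.1, hp.2, and_self, if_true, not_true, if_false, TT_zero, TT_one, TT_two] at h6 ⊢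
      nlinarith
    · have h6 := mul_le_mul_of_nonneg_right (hout (TT p) hp) (sq_nonneg (v (TT p)))
      simp only [t01, Set.indicator, Set.mem_prod (s := _ ×ˢ _), Set.mem_prod (s := _ᶜ),
        Set.mem_compl_iff, Set.mem_univ, and_true, hp, if_true, not_false_iff, if_false,
        TT_two] at h6 ⊢
      nlinarith [sq_nonneg (pd 0 v (TT p)), sq_nonneg (pd 1 v (TT p))]
  have b1 := (bm_t01 (Λ := Λ) hv (bm_u B)).add (bm_t2 hv hu3)
  have b2 := (BM.const (E - ε)).mul bg.pow2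
  have b3 := (BM.const (1 / 2)).mul (BM.sum univ bd)
  have b4 := bV.mul bg.pow2
  have h7 := integral_mono ((b1.add b2).int ((μ.prod μ).prod μ))
    ((b3.add b4).int ((μ.prod μ).prod μ)) h5
  rw [integral_add (b1.int _) (b2.int _), integral_add (b3.int _) (b4.int _), integral_const_mul,
    integral_const_mul, integral_finsetSum _ fun k _ => (bd k).int _] at h7
  simp only [Finset.univ_unique, Finset.sum_singleton] at h3
  simp only [qb, kin1, e1, e2, e3', e4]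
  linarith

end Gap

end Vale.Agent.P370Z.ASM
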