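import Vale.Agent.P370Z.Basic

/-!
# P370, block ASM: bilinearity of the forms, Bessel inequality
-/

namespace Vale.Agent.P370Z.ASM

open MeasureTheory Finset

/-- Continuous with compact support. -/
def Cc (f : P3 → ℝ) : Prop := Continuous f ∧ HasCompactSupport f

theorem Cc.int {f : P3 → ℝ} (h : Cc f) : Integrable f := h.1.integrable_of_hasCompactSupport h.2

theorem Cc.mul {f g : P3 → ℝ} (hf : Cc f) (hg : Cc g) : Cc fun x => f x * g x :=
  ⟨hf.1.mul hg.1, hf.2.mul_right⟩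

theorem Cc.int_mul {f g : P3 → ℝ} (hf : Cc f) (hg : Cc g) : Integrable fun x => f x * g x :=
  (hf.mul hg).int

theorem Cc.sq {f : P3 → ℝ} (hf : Cc f) : Cc fun x => f x ^ 2 := by
  simpa only [pow_two] using hf.mul hf

theorem Cc.int_pot {V f : P3 → ℝ} (hV : PotOK V) (hf : Cc f) : Integrable fun x => V x * f x :=
  hV.2.integrable_smul_right_of_hasCompactSupport hf.1 hf.2

theorem Cc.bdd {f : P3 → ℝ} (hf : Cc f) : ∃ B, ∀ x, |f x| ≤ B := by
  obtain ⟨B, hB⟩ := hf.1.bounded_above_of_compact_support hf.2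
  exact ⟨B, fun x => by simpa using hB x⟩

theorem cc_of_c1c {f : P3 → ℝ} (h : C1c f) : Cc f := ⟨h.1.continuous, h.2⟩

theorem cc_pd {f : P3 → ℝ} (h : C1c f) (k : Fin 3) : Cc (pd k f) :=
  ⟨(h.1.continuous_fderiv one_ne_zero).clm_apply continuous_const, h.2.fderiv_apply ℝ _⟩

theorem c1c_diff {f : P3 → ℝ} (h : C1c f) : Differentiable ℝ f := h.1.differentiable one_ne_zero

theorem c1c_add {f g : P3 → ℝ} (hf : C1c f) (hg : C1c g) : C1c fun x => f x + g x :=
  ⟨hf.1.add hg.1, hf.2.add hg.2⟩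

theorem c1c_sub {f g : P3 → ℝ} (hf : C1c f) (hg : C1c g) : C1c fun x => f x - g x :=
  ⟨hf.1.sub hg.1, hf.2.sub hg.2⟩

theorem c1c_const_mul (c : ℝ) {f : P3 → ℝ} (hf : C1c f) : C1c fun x => c * f x :=
  ⟨contDiff_const.mul hf.1, hf.2.mul_left⟩

theorem c1c_zero : C1c fun _ : P3 => (0 : ℝ) := ⟨contDiff_const, HasCompactSupport.zero⟩

theorem c1c_sum {R : Type} (s : Finset R) {e : R → P3 → ℝ} (he : ∀ κ, C1c (e κ)) :
    C1c fun x => ∑ κ ∈ s, e κ x := by
  classical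
  induction s using Finset.induction_on with
  | empty => simpa using c1c_zero
  | insert a s ha ih =>
    simp only [Finset.sum_insert ha]
    exact c1c_add (he a) ih

theorem c1c_comb {R : Type} [Fintype R] (a : R → ℝ) {e : R → P3 → ℝ} (he : ∀ κ, C1c (e κ)) :
    C1c (comb a e) :=
  c1c_sum univ fun κ => c1c_const_mul (a κ) (he κ)

theorem pd_add {f g : P3 → ℝ} (hf : C1c f) (hg : C1c g) (k : Fin 3) (x : P3) :
    pd k (fun x => f x + g x) x = pd k f x + pd k g x := by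
  unfold pd
  rw [fderiv_fun_add (c1c_diff hf x) (c1c_diff hg x)]
  rfl

theorem pd_comb {R : Type} [Fintype R] (a : R → ℝ) {e : R → P3 → ℝ} (he : ∀ κ, C1c (e κ))
    (k : Fin 3) (x : P3) : pd k (comb a e) x = ∑ κ, a κ * pd k (e κ) x := by
  unfold pd comb
  rw [fderiv_fun_sum fun κ _ => c1c_diff (c1c_const_mul (a κ) (he κ)) x,
    _root_.sum_apply]
  refine Finset.sum_congr rfl fun κ _ => ?_
  rw [fderiv_const_mul (c1c_diff (he κ) x)]
  rfl

theorem ip_comm (u v : P3 → ℝ) : ip u v = ip v u := by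
  simp only [ip, mul_comm]

theorem kin1_comm (u v : P3 → ℝ) : kin1 u v = kin1 v u := by
  simp only [kin1, mul_comm]

theorem qb_comm (V u v : P3 → ℝ) : qb V u v = qb V v u := by
  simp only [qb, kin1_comm u v, mul_comm (u _) (v _)]

theorem ip_nonneg (u : P3 → ℝ) : 0 ≤ ip u u := integral_nonneg fun _ => mul_self_nonneg _

theorem kin1_nonneg (u : P3 → ℝ) : 0 ≤ kin1 u u :=
  mul_nonneg (by norm_num) (Finset.sum_nonneg fun _ _ => integral_nonneg fun _ => mul_self_nonneg _)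

theorem ip_add_left {u v w : P3 → ℝ} (hu : C1c u) (hv : C1c v) (hw : C1c w) :
    ip (fun x => u x + v x) w = ip u w + ip v w := by
  simp only [ip, add_mul]
  exact integral_add ((cc_of_c1c hu).int_mul (cc_of_c1c hw)) ((cc_of_c1c hv).int_mul (cc_of_c1c hw))

theorem ip_comb_left {R : Type} [Fintype R] (a : R → ℝ) {e : R → P3 → ℝ} (he : ∀ κ, C1c (e κ))
    {w : P3 → ℝ} (hw : C1c w) : ip (comb a e) w = ∑ κ, a κ * ip (e κ) w := by
  simp only [ip, comb, Finset.sum_mul, mul_assoc]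
  rw [integral_finsetSum _ fun κ _ => ((cc_of_c1c (he κ)).int_mul (cc_of_c1c hw)).const_mul _]
  simp only [integral_const_mul]

theorem qb_add_left {V u v w : P3 → ℝ} (hV : PotOK V) (hu : C1c u) (hv : C1c v) (hw : C1c w) :
    qb V (fun x => u x + v x) w = qb V u w + qb V v w := by
  simp only [qb, kin1, pd_add hu hv, add_mul, mul_add]
  rw [integral_add (((cc_of_c1c hu).mul (cc_of_c1c hw)).int_pot hV)
    (((cc_of_c1c hv).mul (cc_of_c1c hw)).int_pot hV)]
  have h1 : ∀ k, ∫ x, (pd k u x * pd k w x + pd k v x * pd k w x) =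
      (∫ x, pd k u x * pd k w x) + ∫ x, pd k v x * pd k w x := fun k =>
    integral_add ((cc_pd hu k).int_mul (cc_pd hw k)) ((cc_pd hv k).int_mul (cc_pd hw k))
  simp only [h1, Finset.sum_add_distrib]
  ring

theorem qb_comb_left {R : Type} [Fintype R] {V : P3 → ℝ} (hV : PotOK V) (a : R → ℝ)
    {e : R → P3 → ℝ} (he : ∀ κ, C1c (e κ)) {w : P3 → ℝ} (hw : C1c w) :
    qb V (comb a e) w = ∑ κ, a κ * qb V (e κ) w := by
  have h1 : ∀ k, ∫ x, pd k (comb a e) x * pd k w x = ∑ κ, a κ * ∫ x, pd k (e κ) x * pd k w x := by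
    intro k
    simp only [pd_comb a he, Finset.sum_mul, mul_assoc]
    rw [integral_finsetSum _ fun κ _ => ((cc_pd (he κ) k).int_mul (cc_pd hw k)).const_mul _]
    simp only [integral_const_mul]
  have h2 : ∫ x, V x * (comb a e x * w x) = ∑ κ, a κ * ∫ x, V x * (e κ x * w x) := by
    have h3 : ∀ x, V x * (comb a e x * w x) = ∑ κ, a κ * (V x * (e κ x * w x)) := by
      intro x
      simp only [comb, Finset.sum_mul, Finset.mul_sum]
      exact Finset.sum_congr rfl fun κ _ => by ring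
    simp only [h3]
    rw [integral_finsetSum _ fun κ _ =>
      (((cc_of_c1c (he κ)).mul (cc_of_c1c hw)).int_pot hV).const_mul _]
    simp only [integral_const_mul]
  simp only [qb, kin1, h1, h2, mul_add, Finset.sum_add_distrib, Finset.mul_sum]
  rw [Finset.sum_comm]
  congr 1
  exact Finset.sum_congr rfl fun κ _ => Finset.sum_congr rfl fun k _ => by ring

theorem ip_comb_comb {R : Type} [Fintype R] [DecidableEq R] (a a' : R → ℝ) {e : R → P3 → ℝ}
    (he : ∀ κ, C1c (e κ)) (hon : ∀ κ κ', ip (e κ) (e κ') = idm κ κ') :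
    ip (comb a e) (comb a' e) = ∑ κ, a κ * a' κ := by
  rw [ip_comb_left a he (c1c_comb a' he)]
  refine Finset.sum_congr rfl fun κ _ => ?_
  rw [ip_comm, ip_comb_left a' he (he κ)]
  simp [hon, idm]

theorem qb_comb_comb {R : Type} [Fintype R] {V : P3 → ℝ} (hV : PotOK V) (a a' : R → ℝ)
    {e : R → P3 → ℝ} (he : ∀ κ, C1c (e κ)) :
    qb V (comb a e) (comb a' e) = ∑ κ, ∑ κ', a κ * a' κ' * qb V (e κ) (e κ') := by
  rw [qb_comb_left hV a he (c1c_comb a' he)]
  refine Finset.sum_congr rfl fun κ _ => ?_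
  rw [qb_comm, qb_comb_left hV a' he (he κ), Finset.mul_sum]
  exact Finset.sum_congr rfl fun κ' _ => by rw [qb_comm]; ring

/-- The part of `u` orthogonal to the band. -/
noncomputable def perp {R : Type} [Fintype R] (e : R → P3 → ℝ) (u : P3 → ℝ) (x : P3) : ℝ :=
  u x - comb (fun κ => ip (e κ) u) e x

section Perp

variable {R : Type} [Fintype R] [DecidableEq R] {e : R → P3 → ℝ} {u : P3 → ℝ}

omit [DecidableEq R] in
theorem c1c_perp (he : ∀ κ, C1c (e κ)) (hu : C1c u) : C1c (perp e u) :=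
  c1c_sub hu (c1c_comb _ he)

omit [DecidableEq R] in
theorem eq_comb_add_perp (e : R → P3 → ℝ) (u : P3 → ℝ) :
    u = fun x => comb (fun κ => ip (e κ) u) e x + perp e u x := by
  funext x
  simp [perp]

theorem ip_perp (he : ∀ κ, C1c (e κ)) (hon : ∀ κ κ', ip (e κ) (e κ') = idm κ κ') (hu : C1c u)
    (κ : R) : ip (e κ) (perp e u) = 0 := by
  have h1 : ip u (e κ) = ip (comb (fun κ => ip (e κ) u) e) (e κ) + ip (perp e u) (e κ) := by
    conv_lhs => rw [eq_comb_add_perp e u]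
    exact ip_add_left (c1c_comb _ he) (c1c_perp he hu) (he κ)
  rw [ip_comb_left _ he (he κ)] at h1
  simp only [hon, idm, mul_ite, mul_one, mul_zero, Finset.sum_ite_eq', Finset.mem_univ,
    if_true] at h1
  rw [ip_comm u] at h1
  rw [ip_comm]
  linarith

theorem ip_self_eq (he : ∀ κ, C1c (e κ)) (hon : ∀ κ κ', ip (e κ) (e κ') = idm κ κ') (hu : C1c u) :
    ip u u = ∑ κ, ip (e κ) u ^ 2 + ip (perp e u) (perp e u) := by
  have hc := c1c_comb (fun κ => ip (e κ) u) he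
  have hp := c1c_perp he hu
  have h0 : ip (comb (fun κ => ip (e κ) u) e) (perp e u) = 0 := by
    rw [ip_comb_left _ he hp]
    simp [ip_perp he hon hu]
  have h1 : ip u u = ip (fun x => comb (fun κ => ip (e κ) u) e x + perp e u x)
      (fun x => comb (fun κ => ip (e κ) u) e x + perp e u x) := by
    rw [← eq_comb_add_perp e u]
  rw [h1, ip_add_left hc hp (c1c_add hc hp), ip_comm _ (fun x => _ + _),
    ip_comm (perp e u) (fun x => _ + _), ip_add_left hc hp hc, ip_add_left hc hp hp,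
    ip_comm (perp e u) (comb _ _), h0, ip_comb_comb _ _ he hon]
  simp only [sq]
  ring

theorem bessel (he : ∀ κ, C1c (e κ)) (hon : ∀ κ κ', ip (e κ) (e κ') = idm κ κ') (hu : C1c u) :
    ∑ κ, ip (e κ) u ^ 2 ≤ ip u u := by
  rw [ip_self_eq he hon hu]
  exact le_add_of_nonneg_right (ip_nonneg _)

omit [DecidableEq R] in
theorem qb_self_eq {V : P3 → ℝ} (hV : PotOK V) (he : ∀ κ, C1c (e κ)) (hu : C1c u) :
    qb V u u = (∑ κ, ∑ κ', ip (e κ) u * ip (e κ') u * qb V (e κ) (e κ')) +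
      2 * (∑ κ, ip (e κ) u * qb V (e κ) (perp e u)) + qb V (perp e u) (perp e u) := by
  have hc := c1c_comb (fun κ => ip (e κ) u) he
  have hp := c1c_perp he hu
  have h1 : qb V u u = qb V (fun x => comb (fun κ => ip (e κ) u) e x + perp e u x)
      (fun x => comb (fun κ => ip (e κ) u) e x + perp e u x) := by
    rw [← eq_comb_add_perp e u]
  rw [h1, qb_add_left hV hc hp (c1c_add hc hp), qb_comm V _ (fun x => _ + _),
    qb_comm V (perp e u) (fun x => _ + _), qb_add_left hV hc hp hc, qb_add_left hV hc hp hp,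
    qb_comm V (perp e u) (comb _ _), qb_comb_comb hV _ _ he, qb_comb_left hV _ he hp]
  ring

end Perp

/-- A quadratic form with small entries. -/
theorem abs_sum_le {R : Type} [Fintype R] (a a' : R → ℝ) (m : R → R → ℝ) {δ : ℝ} (hδ : 0 ≤ δ)
    (hm : ∀ κ κ', |m κ κ'| ≤ δ) :
    |∑ κ, ∑ κ', a κ * a' κ' * m κ κ'| ≤
      Fintype.card R * δ * (((∑ κ, a κ ^ 2) + ∑ κ, a' κ ^ 2) / 2) := by
  have h1 : ∀ κ κ', |a κ * a' κ' * m κ κ'| ≤ δ * ((a κ ^ 2 + a' κ' ^ 2) / 2) := by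
    intro κ κ'
    rw [abs_mul, mul_comm]
    refine mul_le_mul (hm κ κ') ?_ (abs_nonneg _) hδ
    rw [abs_le]
    constructor <;> nlinarith [sq_nonneg (a κ + a' κ'), sq_nonneg (a κ - a' κ')]
  calc |∑ κ, ∑ κ', a κ * a' κ' * m κ κ'| ≤ ∑ κ, ∑ κ', δ * ((a κ ^ 2 + a' κ' ^ 2) / 2) :=
        (Finset.abs_sum_le_sum_abs _ _).trans (Finset.sum_le_sum fun κ _ =>
          (Finset.abs_sum_le_sum_abs _ _).trans (Finset.sum_le_sum fun κ' _ => h1 κ κ'))
    _ = Fintype.card R * δ * (((∑ κ, a κ ^ 2) + ∑ κ, a' κ ^ 2) / 2) := by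
        simp only [← Finset.mul_sum, ← Finset.sum_div, Finset.sum_add_distrib, Finset.sum_const,
          Finset.card_univ, nsmul_eq_mul]
        ring

theorem sum_idm {R : Type} [Fintype R] [DecidableEq R] (a a' : R → ℝ) (E : ℝ) :
    ∑ κ, ∑ κ', a κ * a' κ' * (E * idm κ κ') = E * ∑ κ, a κ * a' κ := by
  rw [Finset.mul_sum]
  refine Finset.sum_congr rfl fun κ _ => ?_
  simp only [idm, mul_ite, mul_one, mul_zero, Finset.sum_ite_eq, Finset.mem_univ, if_true]
  ring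

/-- The form on linear combinations of band orbitals. -/
theorem qb_comb_approx {R : Type} [Fintype R] [DecidableEq R] {V : P3 → ℝ} (hV : PotOK V)
    {e : R → P3 → ℝ} (he : ∀ κ, C1c (e κ)) {h : R → R → ℝ} {E δ : ℝ} (hδ : 0 ≤ δ)
    (hup : ∀ κ κ', |qb V (e κ) (e κ') - (E * idm κ κ' + h κ κ')| ≤ δ) (a a' : R → ℝ) :
    |(∑ κ, ∑ κ', a κ * a' κ' * qb V (e κ) (e κ')) -
      (E * ∑ κ, a κ * a' κ + ∑ κ, ∑ κ', a κ * h κ κ' * a' κ')| ≤
      Fintype.card R * δ * (((∑ κ, a κ ^ 2) + ∑ κ, a' κ ^ 2) / 2) := by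
  have _ := hV
  have _ := he
  have h1 := abs_sum_le a a' _ hδ hup
  have h2 : (∑ κ, ∑ κ', a κ * a' κ' * qb V (e κ) (e κ')) -
      (E * ∑ κ, a κ * a' κ + ∑ κ, ∑ κ', a κ * h κ κ' * a' κ') =
      ∑ κ, ∑ κ', a κ * a' κ' * (qb V (e κ) (e κ') - (E * idm κ κ' + h κ κ')) := by
    rw [← sum_idm a a' E, ← Finset.sum_add_distrib, ← Finset.sum_sub_distrib]
    refine Finset.sum_congr rfl fun κ _ => ?_
    rw [← Finset.sum_add_distrib, ← Finset.sum_sub_distrib]
    exact Finset.sum_congr rfl fun κ' _ => by ring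
  rwa [h2]

theorem oba' {C D R : Type} [Fintype C] [DecidableEq C] [Fintype D] [DecidableEq D]
    [Fintype R] [DecidableEq R] (V : P3 → ℝ) (hV : PotOK V) (e : R → P3 → ℝ)
    (h : R → R → ℝ) (E Γ δ : ℝ) (B3 : Band3 V e h E Γ δ) (O : C ⊕ D → R → ℝ) (Rc : C → R → ℝ)
    (Tc γ δ' τ : ℝ) (G : GridOK h O Rc Tc γ δ' τ) (hγ : γ ≤ Γ) (hδ : 0 ≤ δ)
    (hδ' : 0 ≤ δ') :
    OB V (fun μ => comb (O μ) e) (fun c => comb (Rc c) e) E Tc γ
      (δ' + (Fintype.card R + 1) * δ) τ := by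
  have he := B3.c1c
  have hunit : ∀ μ, ∑ κ, O μ κ ^ 2 = 1 := fun μ => by
    have := G.on μ μ
    simpa [idm, sq] using this
  have hcard : (0 : ℝ) ≤ Fintype.card R * δ := by positivity
  refine ⟨fun μ => c1c_comb _ he, fun c => c1c_comb _ he, fun μ ν => ?_, fun c c' => ?_,
    fun c => ?_, fun u hu => ?_, fun c => ?_, fun d d' => ?_⟩
  · rw [ip_comb_comb _ _ he B3.on, G.on]
  · rw [ip_comb_comb _ _ he B3.on, G.orth]
  · rw [ip_comb_comb _ _ he B3.on]
    simpa only [sq] using G.norm c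
  · have h1 := B3.low u hu
    have h2 := G.low fun κ => ip (e κ) u
    have h3 := bessel he B3.on hu
    have h4 := ip_nonneg u
    simp only [ip_comb_left _ he hu]
    have h5 : 0 ≤ (Γ - γ) * (ip u u - ∑ κ, ip (e κ) u ^ 2) :=
      mul_nonneg (by linarith) (by linarith)
    have h6 : 0 ≤ δ' * (ip u u - ∑ κ, ip (e κ) u ^ 2) := mul_nonneg hδ' (by linarith)
    have h7 : 0 ≤ Fintype.card R * δ * ip u u := mul_nonneg hcard h4
    nlinarith
  · have h1 := qb_comb_approx hV he hδ B3.up (O (.inl c)) (O (.inl c))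
    rw [← qb_comb_comb hV _ _ he, G.on, G.core, hunit] at h1
    have h2 := (abs_le.1 h1).2
    simp only [idm, if_true] at h2
    nlinarith
  · have h1 := qb_comb_approx hV he hδ B3.up (O (.inr d)) (O (.inr d'))
    rw [← qb_comb_comb hV _ _ he, G.on, G.val, hunit, hunit] at h1
    have h2 : idm (Sum.inr d : C ⊕ D) (Sum.inr d') = idm d d' := by simp [idm]
    rw [h2, add_zero] at h1
    refine h1.trans ?_
    nlinarith

end Vale.Agent.P370Z.ASM
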