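import Vale.Agent.P370Z.ASM.Ent

/-!
# P370, block ASM: the three-dimensional band
-/

namespace Vale.Agent.P370Z

open MeasureTheory Finset

namespace ASM

theorem band_abs {R : Type} [Fintype R] [DecidableEq R] {V : P3 → ℝ} (hV : PotOK V)
    {e : R → P3 → ℝ} (he : ∀ κ, C1c (e κ)) (hon : ∀ κ κ', ip (e κ) (e κ') = idm κ κ')
    {h : R → R → ℝ} {E Γ ε ρ s δ : ℝ} (hε : 0 ≤ ε) (hρ : 0 ≤ ρ)
    (hup : ∀ κ κ', |qb V (e κ) (e κ') - (E * idm κ κ' + h κ κ')| ≤ ε)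
    (hcross : ∀ κ v, C1c v → ip (e κ) v = 0 → ∀ a : ℝ,
      -(s * ip v v + a ^ 2 * ρ) ≤ 2 * a * qb V (e κ) v)
    (hgap : ∀ v, C1c v → (∀ κ, ip (e κ) v = 0) → (E + Γ / 2) * ip v v ≤ qb V v v)
    (hs : Fintype.card R * s ≤ Γ / 4) (hδ : Fintype.card R * ε + ρ ≤ δ) :
    Band3 V e h E (Γ / 4) δ := by
  have hc : (0 : ℝ) ≤ Fintype.card R * ε := by positivity
  refine ⟨he, hon, fun u hu => ?_, fun κ κ' => (hup κ κ').trans ?_⟩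
  · have hp := c1c_perp he hu
    have h0 := ip_perp he hon hu
    have h1 := qb_self_eq hV he hu
    have h2 := ip_self_eq he hon hu
    have h3 := (abs_le.1 (qb_comb_approx hV he hε hup (fun κ => ip (e κ) u)
      (fun κ => ip (e κ) u))).1
    have h4 := hgap _ hp h0
    have h5 : -(Fintype.card R * s * ip (perp e u) (perp e u) + (∑ κ, ip (e κ) u ^ 2) * ρ) ≤
        2 * ∑ κ, ip (e κ) u * qb V (e κ) (perp e u) := by
      have h6 := Finset.sum_le_sum fun κ (_ : κ ∈ univ) => hcross κ _ hp (h0 κ) (ip (e κ) u)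
      simp only [Finset.sum_neg_distrib, Finset.sum_add_distrib, Finset.sum_const,
        Finset.card_univ, nsmul_eq_mul, ← Finset.sum_mul, mul_assoc, ← Finset.mul_sum] at h6
      linarith
    have h7 := ip_nonneg (perp e u)
    have h8 : 0 ≤ ∑ κ, ip (e κ) u ^ 2 := Finset.sum_nonneg fun _ _ => sq_nonneg _
    simp only [← pow_two] at h3
    have h9 := mul_le_mul_of_nonneg_right hs h7
    have h10 := mul_le_mul_of_nonneg_right hδ h8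
    have h11 : 0 ≤ δ * ip (perp e u) (perp e u) := mul_nonneg (by linarith) h7
    rw [h1, h2]
    nlinarith
  · have h1 : (1 : ℝ) ≤ Fintype.card R := by
      exact_mod_cast Fintype.card_pos_iff.2 ⟨κ⟩
    nlinarith

theorem gapD {V D : P3 → ℝ} (hV : PotOK V) {L0 η1 η2 : ℝ} (hD : DiscOK D L0 η1 η2)
    {E A Γ θ : ℝ} (hlow : ∀ x, E - A ≤ V x) (hθ : 0 < θ) (hθ1 : θ ≤ 1) (hη0 : 0 ≤ η2)
    (hη : η2 ≤ θ) (hΓ : Γ ≤ 1) (hs : θ * (4 + A) ≤ Γ / 2) {v : P3 → ℝ} (hv : C1c v)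
    (hQ : (Γ - 2 * θ) * ip v v ≤ qb V v v - E * ip v v) :
    (E + Γ / 2) * ip v v ≤ qb (fun x => V x + D x) v v := by
  have c := (cc_of_c1c hv).mul (cc_of_c1c hv)
  have h1 : qb (fun x => V x + D x) v v = qb V v v + ∫ x, D x * (v x * v x) := by
    simp only [qb, add_mul]
    rw [integral_add (c.int_pot hV) (c.int_pot hD.pot)]
    ring
  have h2 : (E - A) * ip v v ≤ ∫ x, V x * (v x * v x) := by
    rw [ip, ← integral_const_mul]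
    exact integral_mono (c.int.const_mul _) (c.int_pot hV) fun x =>
      mul_le_mul_of_nonneg_right (hlow x) (mul_self_nonneg _)
  have h3 := amgm (r := fun x => D x * v x) (v := v)
    (by simpa only [mul_pow] using hD.int v hv) c.int
    (by simpa only [mul_assoc] using c.int_pot hD.pot) 1 hθ
  simp only [mul_pow, mul_assoc] at h3
  have hn := ip_nonneg v
  have hk := kin1_nonneg v
  have h4 : 1 ^ 2 / θ * ∫ x, D x ^ 2 * v x ^ 2 ≤ θ * (ip v v + 2 * kin1 v v) := by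
    rw [one_pow, one_div_mul_eq_div, div_le_iff₀ hθ]
    refine (hD.strong v hv).trans ?_
    have h5 : η2 ^ 2 ≤ θ ^ 2 := pow_le_pow_left₀ hη0 hη 2
    nlinarith [mul_le_mul_of_nonneg_right h5 (by linarith : 0 ≤ ip v v + 2 * kin1 v v)]
  have h6 : kin1 v v ≤ qb V v v - E * ip v v + A * ip v v := by
    simp only [qb]
    linarith
  rw [h1]
  generalize qb V v v = q at *
  generalize ip v v = n at *
  generalize kin1 v v = k at *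
  have h7 := mul_le_mul_of_nonneg_left h6 hθ.le
  have h8 := mul_le_mul_of_nonneg_left hQ (sub_nonneg.2 hθ1)
  have h9 := mul_le_mul_of_nonneg_right hs hn
  have h10 : θ * Γ * n ≤ θ * n := by
    rw [mul_assoc]
    exact mul_le_mul_of_nonneg_left (mul_le_of_le_one_left hn hΓ) hθ.le
  have h11 : 0 ≤ θ * θ * n := by positivity
  nlinarith

theorem cross {M : ℝ} {f g h : ℝ → ℝ} (hf : Orb M f) (hg : Orb M g) (hh : Orb M h)
    (hon : ip (tp f g h) (tp f g h) = 1) {V D : P3 → ℝ} (hV : BM V) {L0 η1 η2 : ℝ}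
    (hD : DiscOK D L0 η1 η2) {E ρ s : ℝ} (hρ : ∀ x, |r0 V E f g h x| ≤ ρ) (hs : 0 < s)
    {v : P3 → ℝ} (hv : C1c v) (h0 : ip (tp f g h) v = 0) (a : ℝ) :
    -(2 * s * ip v v + a ^ 2 * ((ρ ^ 2 * (8 * M ^ 3) + η2 ^ 2 * (1 + 24 * M ^ 9)) / s)) ≤
      2 * a * qb (fun x => V x + D x) (tp f g h) v := by
  have ce := c1c_orb hf hg hh
  have cv := cc_of_c1c hv
  have c := cv.mul cv
  have mr := r0_meas hf hg hh hV.1 E
  have br : BM (r0 V E f g h) := ⟨mr, ρ, hρ⟩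
  obtain ⟨i1, b1⟩ := int_box (B := ρ ^ 2) hf.nonneg (mr.pow_const 2) (fun x => by
      rw [abs_pow]
      exact pow_le_pow_left₀ (abs_nonneg _) (hρ x) 2)
    (fun x hx => r0_supp hf hg hh V E x ((pow_ne_zero_iff two_ne_zero).1 hx))
  have h1 := amgm i1 c.int (cv.int_pot br.potOK) a hs
  have h2 := amgm (r := fun x => D x * tp f g h x) (v := v)
    (by simpa only [mul_pow] using hD.int _ ce) c.int
    (by simpa only [mul_assoc] using ((cc_of_c1c ce).mul cv).int_pot hD.pot) a hs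
  simp only [mul_pow, mul_assoc] at h2
  have h3 : ∫ x, D x ^ 2 * tp f g h x ^ 2 ≤ η2 ^ 2 * (1 + 24 * M ^ 9) := by
    refine (hD.strong _ ce).trans (mul_le_mul_of_nonneg_left ?_ (sq_nonneg _))
    rw [hon]
    linarith [kin_orb_le hf hg hh]
  have h4 : ∫ x, r0 V E f g h x ^ 2 ≤ ρ ^ 2 * (8 * M ^ 3) :=
    (le_abs_self _).trans (b1.trans (le_of_eq (by ring)))
  have ha : 0 ≤ a ^ 2 / s := by positivity
  have h5 := mul_le_mul_of_nonneg_left h3 ha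
  have h6 := mul_le_mul_of_nonneg_left h4 ha
  rw [qb_orb hf hg hh hV.potOK hD.pot E hv, h0]
  have h7 : a ^ 2 * ((ρ ^ 2 * (8 * M ^ 3) + η2 ^ 2 * (1 + 24 * M ^ 9)) / s) =
      a ^ 2 / s * (ρ ^ 2 * (8 * M ^ 3)) + a ^ 2 / s * (η2 ^ 2 * (1 + 24 * M ^ 9)) := by ring
  rw [h7]
  linarith

theorem pow_bound {M c : ℝ} (hM : 2 ≤ M) {i j k : ℕ} (hc : c ≤ 2 ^ j) (hk : i + j ≤ k) :
    c * M ^ i ≤ M ^ k := by
  have h1 : (2 : ℝ) ^ j ≤ M ^ j := pow_le_pow_left₀ (by norm_num) hM j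
  calc c * M ^ i ≤ M ^ j * M ^ i := mul_le_mul_of_nonneg_right (hc.trans h1) (by positivity)
    _ = M ^ (i + j) := by ring
    _ ≤ M ^ k := pow_le_pow_right₀ (by linarith) hk

theorem numerics {K M Γ τ δm εb τ3 wm err η1 η2 : ℝ} (hM : 2 ≤ M) (hK0 : 0 ≤ K) (hK : K ≤ M)
    (hΓ : 1 / M ≤ Γ) (hτ : 0 ≤ τ) (hδ : 0 ≤ δm) (hε : 0 ≤ εb) (hτ3 : 0 ≤ τ3) (hτ3' : τ3 ≤ 1)
    (hw : 0 ≤ wm) (herr : 0 ≤ err) (herr' : err ≤ 1) (hη1 : 0 ≤ η1) :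
    K ^ 2 * (2 * δm + 2 * M ^ 2 * τ3 + K ^ 2 * (3 * (wm * εb)) + 8 * M ^ 9 * err +
      4096 * M ^ 6 * η1) +
      ((M ^ 2 * (2 * τ + τ3) + M ^ 3 * (wm + err)) ^ 2 * (8 * M ^ 3) +
        η2 ^ 2 * (1 + 24 * M ^ 9)) / (Γ / (8 * M ^ 2)) ≤
      4 * K ^ 2 * δm + M ^ 24 * (wm * εb + τ ^ 2 + τ3 + wm ^ 2 + η2 ^ 2 + η1 + err) := by
  have hM0 : 0 < M := by linarith
  have hΓ0 : 0 < Γ := lt_of_lt_of_le (by positivity) hΓ
  obtain ⟨S, hS⟩ : ∃ S, S = wm * εb + τ ^ 2 + τ3 + wm ^ 2 + η2 ^ 2 + η1 + err := ⟨_, rfl⟩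
  rw [← hS]
  have p1 : 0 ≤ wm * εb := by positivity
  have p2 := sq_nonneg τ
  have p3 := sq_nonneg wm
  have p4 := sq_nonneg η2
  have hS0 : 0 ≤ S := by
    rw [hS]
    positivity
  have hK2 : K ^ 2 ≤ M ^ 2 := pow_le_pow_left₀ hK0 hK 2
  have a1 : 2 * M ^ 2 * τ3 + K ^ 2 * (3 * (wm * εb)) + 8 * M ^ 9 * err + 4096 * M ^ 6 * η1 ≤
      M ^ 18 * S := by
    have k1 := mul_le_mul_of_nonneg_right
      (pow_bound (c := 2) (i := 2) (j := 1) (k := 18) hM (by norm_num) (by norm_num)) hτ3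
    have k2 := mul_le_mul_of_nonneg_right
      (pow_bound (c := 3) (i := 2) (j := 2) (k := 18) hM (by norm_num) (by norm_num)) p1
    have k3 := mul_le_mul_of_nonneg_right
      (pow_bound (c := 8) (i := 9) (j := 3) (k := 18) hM (by norm_num) (by norm_num)) herr
    have k4 := mul_le_mul_of_nonneg_right
      (pow_bound (c := 4096) (i := 6) (j := 12) (k := 18) hM (by norm_num) (by norm_num)) hη1
    have k5 := mul_le_mul_of_nonneg_right hK2 p1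
    have k6 : 0 ≤ M ^ 18 * (τ ^ 2 + wm ^ 2 + η2 ^ 2) := by positivity
    rw [hS]
    linarith
  have a2 : M ^ 2 * (2 * τ + τ3) + M ^ 3 * (wm + err) ≤ M ^ 3 * (τ + τ3 + wm + err) := by
    have k1 := mul_le_mul_of_nonneg_right
      (pow_bound (c := 2) (i := 2) (j := 1) (k := 3) hM (by norm_num) (by norm_num)) hτ
    have k2 := mul_le_mul_of_nonneg_right
      (pow_bound (c := 1) (i := 2) (j := 1) (k := 3) hM (by norm_num) (by norm_num)) hτ3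
    linarith
  have a3 : (τ + τ3 + wm + err) ^ 2 ≤ 4 * S := by
    have k1 : τ3 ^ 2 ≤ τ3 := by nlinarith
    have k2 : err ^ 2 ≤ err := by nlinarith
    rw [hS]
    nlinarith [sq_nonneg (τ - τ3), sq_nonneg (τ - wm), sq_nonneg (τ - err), sq_nonneg (τ3 - wm),
      sq_nonneg (τ3 - err), sq_nonneg (wm - err)]
  have a4 : (M ^ 2 * (2 * τ + τ3) + M ^ 3 * (wm + err)) ^ 2 ≤ M ^ 6 * (4 * S) := by
    refine (pow_le_pow_left₀ (by positivity) a2 2).trans ?_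
    rw [mul_pow, ← pow_mul]
    exact mul_le_mul_of_nonneg_left a3 (by positivity)
  have a5 : η2 ^ 2 * (1 + 24 * M ^ 9) ≤ S * (25 * M ^ 9) := by
    have k1 : 1 ≤ M ^ 9 := one_le_pow₀ (by linarith)
    refine mul_le_mul ?_ (by linarith) (by positivity) hS0
    rw [hS]
    linarith
  have a6 : ((M ^ 2 * (2 * τ + τ3) + M ^ 3 * (wm + err)) ^ 2 * (8 * M ^ 3) +
        η2 ^ 2 * (1 + 24 * M ^ 9)) / (Γ / (8 * M ^ 2)) ≤ 456 * M ^ 12 * S := by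
    rw [div_le_iff₀ (by positivity)]
    have k1 := mul_le_mul_of_nonneg_right a4 (by positivity : 0 ≤ 8 * M ^ 3)
    have k2 : 456 * M ^ 12 * S * (1 / M / (8 * M ^ 2)) ≤ 456 * M ^ 12 * S * (Γ / (8 * M ^ 2)) := by
      gcongr
    have k3 : 456 * M ^ 12 * S * (1 / M / (8 * M ^ 2)) = 57 * M ^ 9 * S := by
      field_simp
      ring
    linarith
  have a7 := mul_le_mul hK2 a1 (by positivity) (by positivity)
  have a8 := mul_le_mul_of_nonneg_right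
    (pow_bound (c := 456) (i := 12) (j := 9) (k := 23) hM (by norm_num) (by norm_num)) hS0
  have a9 := mul_le_mul_of_nonneg_right
    (pow_bound (c := 1) (i := 20) (j := 0) (k := 23) hM (by norm_num) (by norm_num)) hS0
  have a10 := mul_le_mul_of_nonneg_right
    (pow_bound (c := 2) (i := 23) (j := 1) (k := 24) hM (by norm_num) (by norm_num)) hS0
  have a11 : 0 ≤ K ^ 2 * δm := by positivity
  linarith

theorem theta_small {M Γ : ℝ} (hM : 2 ≤ M) (hΓ : 1 / M ≤ Γ) :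
    1 / M ^ 24 * (4 + 3 * M / 2) ≤ Γ / 2 := by
  have h1 := pow_bound (c := 7) (i := 2) (j := 3) (k := 24) hM (by norm_num) (by norm_num)
  have hM0 : 0 < M := by linarith
  refine le_trans ?_ (div_le_div_of_nonneg_right hΓ (by norm_num))
  rw [one_div_mul_eq_div, div_div, div_le_div_iff₀ (by positivity) (by positivity)]
  nlinarith

end ASM

open ASM in
theorem asm3 : ∃ κ : ℕ, ∀ (K : ℕ) (Λ : ℝ) (u : ℝ → ℝ)
    (e b : ℕ → ℝ → ℝ) (H : ℕ → ℕ → ℝ) (zl zr sb : ℕ → ℝ) (C Γ τ δm δg εb εz : ℝ)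
    (_ : Band1 K Λ u e b H zl zr sb C Γ τ δm δg εb εz)
    (ω z0 L1 : ℝ) (e3 : ℝ → ℝ) (Γ3 τ3 δ3 : ℝ) (_ : ZBand ω z0 L1 e3 C Γ3 τ3 δ3)
    (w : ℕ → ℕ → ℝ) (wm : ℝ) (V0 D : P3 → ℝ) (u3 : ℝ → ℝ) (E0 Hh err η1 η2 L0 M : ℝ),
    2 ≤ M → (K : ℝ) ≤ M → C ≤ M → 0 ≤ ω → ω ≤ M → 0 ≤ Λ → Λ ≤ L0 → z0 + 1 ≤ L0 → L0 ≤ M →
    1 / M ≤ Γ → Γ ≤ Γ3 → Γ ≤ 1 → 1 ≤ Hh → (∀ k l, |w k l| ≤ wm) →
    0 ≤ τ → 0 ≤ δm → 0 ≤ δg → 0 ≤ εb → εb ≤ 1 → 0 ≤ τ3 → τ3 ≤ 1 → 0 ≤ δ3 → 0 ≤ err → 0 ≤ η1 →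
    0 ≤ η2 →
    Measurable V0 → (∃ B, ∀ x, |V0 x| ≤ B) → Measurable u3 → (∃ B, ∀ z, |u3 z| ≤ B) →
    (∀ z, |z| ≤ 2 * L1 → u3 z = ω ^ 2 * z ^ 2 / 2 - ω / 2) → (∀ z, L1 ≤ |z| → 1 ≤ u3 z) →
    (∀ x : P3, 1 ≤ x 0 → x 0 ≤ Λ - 1 → 1 ≤ x 1 → x 1 ≤ Λ - 1 → |x 2| ≤ z0 + 1 →
      |V0 x - (E0 + u (x 0) + u (x 1) +
        (∑ k ∈ range K, ∑ l ∈ range K, w k l * b k (x 0) * b l (x 1)) +
        ω ^ 2 * x 2 ^ 2 / 2)| ≤ err) →
    (∀ x : P3, x 0 ∈ Set.Icc 0 Λ → x 1 ∈ Set.Icc 0 Λ →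
      E0 + u (x 0) + u (x 1) + u3 (x 2) + ω / 2 - wm - err ≤ V0 x) →
    (∀ x : P3, ¬ (x 0 ∈ Set.Icc 0 Λ ∧ x 1 ∈ Set.Icc 0 Λ) →
      E0 + Hh + u3 (x 2) + ω / 2 - err ≤ V0 x) →
    (∀ x : P3, E0 - M ≤ V0 x) → DiscOK D L0 η1 η2 →
    M ^ κ * (δg + δ3 + wm + err + η2) ≤ 1 →
    Band3 (fun x => V0 x + D x) (prodOrb (K := K) e e3) (gridM K H w) (E0 + ω / 2) (Γ / 4)
      (4 * (K : ℝ) ^ 2 * δm +
        M ^ κ * (wm * εb + τ ^ 2 + τ3 + wm ^ 2 + η2 ^ 2 + η1 + err)) := by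
  refine ⟨24, ?_⟩
  intro K Λ u e b H zl zr sb C Γ τ δm δg εb εz B ω z0 L1 e3 Γ3 τ3 δ3 Z w wm V0 D u3 E0 Hh err η1 η2
    L0 M hM hK hC hω0 hω hΛ0 hΛ hz hL hΓ hΓ3 hΓ1 hH hw hτ hδm hδg hεb hεb1 hτ3 hτ31 hδ3 herr hη1
    hη2 mV bV mu bu hu1 hu2 hR hin hout hlow hD hsmall
  have hM0 : 0 < M := by linarith
  have hΓ0 : 0 < Γ := lt_of_lt_of_le (by positivity) hΓ
  have hwm : 0 ≤ wm := (abs_nonneg _).trans (hw 0 0)
  have hV : BM V0 := ⟨mV, bV⟩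
  have o := orb_e B hC (hΛ.trans hL)
  have oz := orb_z Z hC (hz.trans hL)
  have hP : 0 < M ^ 24 := by positivity
  have hθ : δg + δ3 + wm + err + η2 ≤ 1 / M ^ 24 := by
    rw [le_div_iff₀ hP, mul_comm]
    exact hsmall
  have hθ1 : 1 / M ^ 24 ≤ 1 := by
    rw [div_le_one hP]
    exact one_le_pow₀ (by linarith)
  have hK2 : (K : ℝ) ^ 2 ≤ M ^ 2 := pow_le_pow_left₀ (Nat.cast_nonneg _) hK 2
  have hcard : (Fintype.card (Fin K × Fin K) : ℝ) = (K : ℝ) ^ 2 := by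
    simp [pow_two]
  have hR : ∀ x : P3, 1 ≤ x 0 → x 0 ≤ Λ - 1 → 1 ≤ x 1 → x 1 ≤ Λ - 1 → |x 2| ≤ z0 + 1 →
      |V0 x - (E0 + u (x 0) + u (x 1) + wfun K w b x + ω ^ 2 * x 2 ^ 2 / 2)| ≤ err := hR
  change Band3 _ (fun κ : Fin K × Fin K => tp (e κ.1) (e κ.2) e3) _ _ _ _
  have hε : 0 ≤ 2 * δm + 2 * M ^ 2 * τ3 + K ^ 2 * (3 * (wm * εb)) + 8 * M ^ 9 * err +
      4096 * M ^ 6 * η1 := by positivity
  have hs : 0 < Γ / (8 * M ^ 2) := by positivity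
  have hρ : 0 ≤ ((M ^ 2 * (2 * τ + τ3) + M ^ 3 * (wm + err)) ^ 2 * (8 * M ^ 3) +
      η2 ^ 2 * (1 + 24 * M ^ 9)) / (Γ / (8 * M ^ 2)) := by positivity
  have hθ0 : 0 < 1 / M ^ 24 := by positivity
  have hθ2 : 1 / M ^ 24 * (4 + 3 * M / 2) ≤ Γ / 2 := theta_small hM hΓ
  have h4 : 2 * δg + δ3 + (wm + err) ≤ 2 * (1 / M ^ 24) := by linarith
  have h6 : η2 ≤ 1 / M ^ 24 := by linarith
  have h7 : err ≤ 1 := by linarith
  have hnum := numerics (η2 := η2) hM (Nat.cast_nonneg _) hK hΓ hτ hδm hεb hτ3 hτ31 hwm herr h7 hη1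
  have h8 : (K : ℝ) ^ 2 * (2 * (Γ / (8 * M ^ 2))) ≤ Γ / 4 := by
    have h1 : M ^ 2 * (2 * (Γ / (8 * M ^ 2))) = Γ / 4 := by
      field_simp
      ring
    rw [← h1]
    exact mul_le_mul_of_nonneg_right hK2 (by positivity)
  have hlow' : ∀ x, E0 + ω / 2 - 3 * M / 2 ≤ V0 x := fun x => by linarith [hlow x]
  have hin' : ∀ x : P3, x 0 ∈ Set.Icc 0 Λ → x 1 ∈ Set.Icc 0 Λ →
      E0 + ω / 2 + u (x 0) + u (x 1) + u3 (x 2) - (wm + err) ≤ V0 x :=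
    fun x h2 h3 => by linarith [hin x h2 h3]
  have hout' : ∀ x : P3, ¬ (x 0 ∈ Set.Icc 0 Λ ∧ x 1 ∈ Set.Icc 0 Λ) →
      E0 + ω / 2 + 1 + u3 (x 2) - (wm + err) ≤ V0 x := fun x h2 => by linarith [hout x h2]
  rw [← hcard] at h8
  have hc1 : ∀ κ : Fin K × Fin K, C1c (tp (e κ.1) (e κ.2) e3) :=
    fun κ => c1c_orb (o κ.1) (o κ.2) oz
  have hon1 : ∀ κ : Fin K × Fin K, ip (tp (e κ.1) (e κ.2) e3) (tp (e κ.1) (e κ.2) e3) = 1 := by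
    intro κ
    rw [on_orb B Z κ κ, idm, if_pos rfl]
  have hent := entry B Z hC hΛ hz hL herr hεb1 hw hV hD hR
  have hcr := fun (κ : Fin K × Fin K) (v : P3 → ℝ) (hv : C1c v)
    (h0 : ip (tp (e κ.1) (e κ.2) e3) v = 0) (a : ℝ) => cross (o κ.1) (o κ.2) oz (hon1 κ) hV hD
      (r0_le B Z hC herr hw hR κ.1 κ.2) hs hv h0 a
  refine band_abs (e := fun κ : Fin K × Fin K => tp (e κ.1) (e κ.2) e3)
    (potOK_add hV.potOK hD.pot) hc1 (on_orb B Z) hε hρ hent hcr (fun v hv h0 => ?_) h8 ?_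
  swap
  · rw [hcard]
    exact hnum
  refine gapD hV.potOK hD hlow' hθ0 hθ1 hη2 h6 hΓ1 hθ2 hv ?_
  have h1 := gap3 B Z hΓ0.le hΓ1 hΓ3 hδg hΛ0 ⟨mu, bu⟩ hu1 hu2 hV hin' hout' hv
  have h0' : ∀ κ, ip (prodOrb (K := K) e e3 κ) v = 0 := h0
  have h5 := mul_le_mul_of_nonneg_right h4 (ip_nonneg v)
  simp only [h0', ne_eq, OfNat.ofNat_ne_zero, not_false_eq_true, zero_pow, Finset.sum_const_zero,
    sub_zero] at h1
  linarith only [h1, h5]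

variable {B C D Ec : Type} [Fintype B] [DecidableEq B] [Fintype C] [DecidableEq C] [Fintype D]
  [DecidableEq D] [Fintype Ec]

theorem oba {R : Type} [Fintype R] [DecidableEq R] (V : P3 → ℝ) (hV : PotOK V) (e : R → P3 → ℝ)
    (h : R → R → ℝ) (E Γ δ : ℝ) (B3 : Band3 V e h E Γ δ) (O : C ⊕ D → R → ℝ) (Rc : C → R → ℝ)
    (Tc γ δ' τ : ℝ) (G : GridOK h O Rc Tc γ δ' τ) (hγ : γ ≤ Γ) (hγ0 : 0 ≤ γ) (hδ : 0 ≤ δ)
    (hδ' : 0 ≤ δ') :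
    OB V (fun μ => comb (O μ) e) (fun c => comb (Rc c) e) E Tc γ
      (δ' + (Fintype.card R + 1) * δ) τ :=
  have _ := hγ0
  ASM.oba' V hV e h E Γ δ B3 O Rc Tc γ δ' τ G hγ hδ hδ'

end Vale.Agent.P370Z
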